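/-
P235-LL (helper834).  The graph `T(U,P)`.
-/
import Vale.Agent.P235.H134.Grid.Defs

set_option linter.all false
set_option autoImplicit false

namespace Vale.Agent.P235.LL

open SimpleGraph H134

/-- `a`, `b` are consecutive in `P` in the order of `w` -/
def ConsIn {V : Type} (P : Set V) (w : V → ℝ) (a b : V) : Prop :=
  a ∈ P ∧ b ∈ P ∧ w a < w b ∧ ∀ c ∈ P, w c ≤ w a ∨ w b ≤ w c

/-- the neighbours of the extra vertex `z` of `T(U,P)` -/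
def TZ {V : Type} (G : SimpleGraph V) (U P : Set V) (w : V → ℝ) (v : V) : Prop :=
  (v ∈ P ∧ ∀ c ∈ P, w v ≤ w c) ∨ (v ∈ P ∧ ∀ c ∈ P, w c ≤ w v) ∨
    (v ∈ U ∧ ∃ b, b ∉ U ∧ b ∉ P ∧ G.Adj v b)

/-- `T(U,P)`: vertices `U`, `P`, `z`; edges of `G` meeting `U`, the path through `P` in the order
of `w`, `z` joined to both ends of this path and to the vertices of `U` with a neighbour outside
`U ∪ P`. -/
def TG {V : Type} (G : SimpleGraph V) (U P : Set V) (w : V → ℝ) :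
    SimpleGraph (Option {v : V // v ∈ U ∨ v ∈ P}) where
  Adj x y := match x, y with
    | some u, some v => (u : V) ≠ v ∧ ((G.Adj u v ∧ ((u : V) ∈ U ∨ (v : V) ∈ U)) ∨
        ConsIn P w u v ∨ ConsIn P w v u)
    | none, some v => TZ G U P w v
    | some v, none => TZ G U P w v
    | none, none => False
  symm := ⟨by
    rintro (_ | u) (_ | v) h
    · exact h
    · exact h
    · exact h
    · obtain ⟨h1, h2⟩ := h
      refine ⟨h1.symm, ?_⟩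
      rcases h2 with ⟨h2, h3⟩ | h2 | h2
      · exact Or.inl ⟨h2.symm, h3.symm⟩
      · exact Or.inr (Or.inr h2)
      · exact Or.inr (Or.inl h2)⟩
  loopless := ⟨by
    rintro (_ | u) h
    · exact h
    · exact h.1 rfl⟩

section basic

variable {V : Type} {G : SimpleGraph V} {U P : Set V} {w : V → ℝ}

theorem TG_some_some {u v : {v : V // v ∈ U ∨ v ∈ P}} :
    (TG G U P w).Adj (some u) (some v) ↔ (u : V) ≠ v ∧
      ((G.Adj u v ∧ ((u : V) ∈ U ∨ (v : V) ∈ U)) ∨ ConsIn P w u v ∨ ConsIn P w v u) := Iff.rfl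

theorem TG_none_some {v : {v : V // v ∈ U ∨ v ∈ P}} :
    (TG G U P w).Adj none (some v) ↔ TZ G U P w v := Iff.rfl

theorem TG_some_none {v : {v : V // v ∈ U ∨ v ∈ P}} :
    (TG G U P w).Adj (some v) none ↔ TZ G U P w v := Iff.rfl

end basic

theorem conn_singleton {X : Type} (Γ : SimpleGraph X) (x : X) :
    (Γ.induce {y | y = x}).Connected := by
  have : Nonempty {y | y = x} := ⟨⟨x, rfl⟩⟩
  refine ⟨fun a b => ?_⟩
  have h : a = b := Subtype.ext (a.2.trans b.2.symm)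
  rw [h]

/-- (M0) branch sets for `T(U,P)` -/
theorem tg_minor {V X : Type} {G : SimpleGraph V} {Γ : SimpleGraph X} {U P : Set V} {w : V → ℝ}
    (hUP : Disjoint U P) (ι : ∀ v : V, v ∈ U → X) (S : V → Set X) (Z : Set X)
    (hinj : ∀ u hu v hv, ι u hu = ι v hv → u = v)
    (hS : ∀ b ∈ P, (Γ.induce (S b)).Connected) (hZ : (Γ.induce Z).Connected)
    (hSS : ∀ b ∈ P, ∀ c ∈ P, b ≠ c → Disjoint (S b) (S c))
    (hSZ : ∀ b ∈ P, Disjoint (S b) Z)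
    (hιS : ∀ u hu, ∀ b ∈ P, ι u hu ∉ S b) (hιZ : ∀ u hu, ι u hu ∉ Z)
    (hUU : ∀ u hu v hv, G.Adj u v → Γ.Adj (ι u hu) (ι v hv))
    (hUb : ∀ u hu, ∀ b ∈ P, G.Adj u b → ∃ x ∈ S b, Γ.Adj (ι u hu) x)
    (hcons : ∀ b c, ConsIn P w b c → ∃ x ∈ S b, ∃ y ∈ S c, Γ.Adj x y)
    (hlo : ∀ b ∈ P, (∀ c ∈ P, w b ≤ w c) → ∃ x ∈ S b, ∃ y ∈ Z, Γ.Adj x y)
    (hhi : ∀ b ∈ P, (∀ c ∈ P, w c ≤ w b) → ∃ x ∈ S b, ∃ y ∈ Z, Γ.Adj x y)
    (hz : ∀ u hu, (∃ b, b ∉ U ∧ b ∉ P ∧ G.Adj u b) → ∃ y ∈ Z, Γ.Adj (ι u hu) y) :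
    IsMinor (TG G U P w) Γ := by
  have hne : ∀ v ∈ U, v ∉ P := fun v h1 h2 => Set.disjoint_left.1 hUP h1 h2
  refine ⟨fun a => match a with
    | none => Z
    | some v => {x | (∃ h : (v : V) ∈ U, x = ι v h) ∨ ((v : V) ∈ P ∧ x ∈ S v)}, ?_, ?_, ?_⟩
  · rintro (_ | ⟨v, hv⟩)
    · exact hZ
    · by_cases h : v ∈ U
      · have e : {x | (∃ h : v ∈ U, x = ι v h) ∨ (v ∈ P ∧ x ∈ S v)} = {ι v h} := by
          ext x
          constructor
          · rintro (⟨_, h1⟩ | ⟨h1, -⟩)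
            · exact h1
            · exact absurd h1 (hne v h)
          · intro h1
            exact Or.inl ⟨h, h1⟩
        show (Γ.induce {x | (∃ h : v ∈ U, x = ι v h) ∨ (v ∈ P ∧ x ∈ S v)}).Connected
        rw [e]
        exact conn_singleton _ _
      · have hP : v ∈ P := hv.resolve_left h
        have e : {x | (∃ h : v ∈ U, x = ι v h) ∨ (v ∈ P ∧ x ∈ S v)} = S v := by
          ext x
          constructor
          · rintro (⟨h2, _⟩ | ⟨-, h1⟩)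
            · exact absurd h2 h
            · exact h1
          · intro h1
            exact Or.inr ⟨hP, h1⟩
        show (Γ.induce {x | (∃ h : v ∈ U, x = ι v h) ∨ (v ∈ P ∧ x ∈ S v)}).Connected
        rw [e]
        exact hS v hP
  · rintro (_ | ⟨a, ha⟩) (_ | ⟨b, hb⟩) hab
    · exact absurd rfl hab
    · refine Set.disjoint_left.2 ?_
      rintro x hx (⟨h1, rfl⟩ | ⟨h1, h2⟩)
      · exact hιZ _ _ hx
      · exact Set.disjoint_left.1 (hSZ b h1) h2 hx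
    · refine Set.disjoint_left.2 ?_
      rintro x (⟨h1, rfl⟩ | ⟨h1, h2⟩) hx
      · exact hιZ _ _ hx
      · exact Set.disjoint_left.1 (hSZ a h1) h2 hx
    · have hab' : a ≠ b := fun h => hab (by subst h; rfl)
      refine Set.disjoint_left.2 ?_
      rintro x (⟨h1, rfl⟩ | ⟨h1, h2⟩) (⟨h3, h4⟩ | ⟨h3, h4⟩)
      · exact hab' (hinj _ _ _ _ h4)
      · exact hιS _ _ b h3 h4
      · exact hιS b h3 a h1 (h4 ▸ h2)
      · exact Set.disjoint_left.1 (hSS a h1 b h3 hab') h2 h4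
  · rintro (_ | ⟨a, ha⟩) (_ | ⟨b, hb⟩) hab
    · exact hab.elim
    · -- z, b
      rcases hab with ⟨h1, h2⟩ | ⟨h1, h2⟩ | ⟨h1, h2⟩
      · obtain ⟨x, hx, y, hy, hxy⟩ := hlo b h1 h2
        exact ⟨y, hy, x, Or.inr ⟨h1, hx⟩, hxy.symm⟩
      · obtain ⟨x, hx, y, hy, hxy⟩ := hhi b h1 h2
        exact ⟨y, hy, x, Or.inr ⟨h1, hx⟩, hxy.symm⟩
      · obtain ⟨y, hy, hxy⟩ := hz b h1 h2
        exact ⟨y, hy, _, Or.inl ⟨h1, rfl⟩, hxy.symm⟩
    · rcases hab with ⟨h1, h2⟩ | ⟨h1, h2⟩ | ⟨h1, h2⟩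
      · obtain ⟨x, hx, y, hy, hxy⟩ := hlo a h1 h2
        exact ⟨x, Or.inr ⟨h1, hx⟩, y, hy, hxy⟩
      · obtain ⟨x, hx, y, hy, hxy⟩ := hhi a h1 h2
        exact ⟨x, Or.inr ⟨h1, hx⟩, y, hy, hxy⟩
      · obtain ⟨y, hy, hxy⟩ := hz a h1 h2
        exact ⟨_, Or.inl ⟨h1, rfl⟩, y, hy, hxy⟩
    · obtain ⟨h1, ⟨h2, h3⟩ | h2 | h2⟩ := hab
      · by_cases haU : a ∈ U
        · by_cases hbU : b ∈ U
          · exact ⟨_, Or.inl ⟨haU, rfl⟩, _, Or.inl ⟨hbU, rfl⟩, hUU _ _ _ _ h2⟩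
          · have hbP : b ∈ P := hb.resolve_left hbU
            obtain ⟨x, hx, hxy⟩ := hUb a haU b hbP h2
            exact ⟨_, Or.inl ⟨haU, rfl⟩, x, Or.inr ⟨hbP, hx⟩, hxy⟩
        · have hbU : b ∈ U := h3.resolve_left haU
          have haP : a ∈ P := ha.resolve_left haU
          obtain ⟨x, hx, hxy⟩ := hUb b hbU a haP h2.symm
          exact ⟨x, Or.inr ⟨haP, hx⟩, _, Or.inl ⟨hbU, rfl⟩, hxy.symm⟩
      · obtain ⟨x, hx, y, hy, hxy⟩ := hcons _ _ h2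
        exact ⟨x, Or.inr ⟨h2.1, hx⟩, y, Or.inr ⟨h2.2.1, hy⟩, hxy⟩
      · obtain ⟨x, hx, y, hy, hxy⟩ := hcons _ _ h2
        exact ⟨y, Or.inr ⟨h2.2.1, hy⟩, x, Or.inr ⟨h2.1, hx⟩, hxy.symm⟩

end Vale.Agent.P235.LL
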