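/-
P235-LL (helper834).  Minors `T(U',P')` from an ascending arc and the rest of the cycle.
-/
import Vale.Agent.P235.LL.H834.TG
import Vale.Agent.P235.LL.H844.Arc

set_option linter.all false
set_option autoImplicit false

namespace Vale.Agent.P235.LL.H834

open SimpleGraph H134

section arc

variable {X : Type} [Finite X] {Γ : SimpleGraph X} {R : X → X → Prop} {h : X → ℝ} {p q : X}
  {A : Set X}

theorem injOn (hA : Arc R h p q A) : Set.InjOn h A := fun x hx y hy e => hA.inj x hx y hy e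

theorem arc_conn (hR : ∀ x y, R x y → Γ.Adj x y) (hA : Arc R h p q A) (I : ℝ → Prop)
    (hI : ∀ a b c, a ≤ b → b ≤ c → I a → I c → I b) (hne : ∃ x ∈ A, I (h x)) :
    (Γ.induce {x | x ∈ A ∧ I (h x)}).Connected := by
  obtain ⟨m, ⟨hm, hIm⟩, hmax⟩ := Set.exists_max_image {x | x ∈ A ∧ I (h x)} h
    (Set.toFinite _) hne
  have key : ∀ n : ℕ, ∀ x (hx : x ∈ A ∧ I (h x)), {y | y ∈ A ∧ h x < h y}.ncard = n →
      (Γ.induce {x | x ∈ A ∧ I (h x)}).Reachable ⟨x, hx⟩ ⟨m, hm, hIm⟩ := by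
    intro n
    induction n using Nat.strong_induction_on with
    | _ n ih =>
    intro x hx hn
    by_cases hxm : x = m
    · subst hxm
      exact Reachable.refl _
    have h1 : h x < h m := lt_of_le_of_ne (hmax x hx) fun hh => hxm (injOn hA hx.1 hm hh)
    have hxq : x ≠ q := fun hh => by
      have := hA.le m hm
      rw [← hh] at this
      linarith
    obtain ⟨y, hy, hRy, hlt, hall⟩ := hA.next x hx.1 hxq
    have h2 : h y ≤ h m := (hall m hm).resolve_left (by linarith)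
    have hIy : I (h y) := hI _ _ _ hlt.le h2 hx.2 hIm
    have h3 : {z | z ∈ A ∧ h y < h z}.ncard < n := by
      rw [← hn]
      refine Set.ncard_lt_ncard ⟨fun z hz => ⟨hz.1, hlt.trans hz.2⟩, fun hh => ?_⟩
        (Set.toFinite _)
      exact lt_irrefl _ (hh (show y ∈ {z | z ∈ A ∧ h x < h z} from ⟨hy, hlt⟩)).2
    have h4 := ih _ h3 y ⟨hy, hIy⟩ rfl
    exact (Adj.reachable (show (Γ.induce {x | x ∈ A ∧ I (h x)}).Adj ⟨x, hx⟩ ⟨y, hy, hIy⟩ from
      hR x y hRy)).trans h4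
  have : Nonempty {x | x ∈ A ∧ I (h x)} := ⟨⟨m, hm, hIm⟩⟩
  refine ⟨fun a b => ?_⟩
  exact (key _ a.1 a.2 rfl).trans (key _ b.1 b.2 rfl).symm

end arc

/-- the part of the arc strictly below or strictly above all of `e '' P` -/
def Rest {V X : Type} (h : X → ℝ) (A : Set X) (P : Set V) (e : V → X) : Set X :=
  {x | x ∈ A ∧ ((∀ c ∈ P, h x < h (e c)) ∨ ∀ c ∈ P, h (e c) < h x)}

/-- **all minors of section (3)** -/
theorem arc_minor {V X : Type} [Finite V] [Finite X] {G : SimpleGraph V} {Γ : SimpleGraph X}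
    {R : X → X → Prop} {h : X → ℝ} {p q : X} {A C : Set X}
    (hR : ∀ x y, R x y → Γ.Adj x y) (hA : Arc R h p q A) {K P : Set V} {w : V → ℝ}
    (hKP : Disjoint K P) (e : V → X) (heK : Set.InjOn e K) (heP : Set.InjOn e P)
    (hPA : ∀ b ∈ P, e b ∈ A) (hP : P.Nonempty)
    (hw : ∀ b ∈ P, ∀ c ∈ P, (w b < w c ↔ h (e b) < h (e c)))
    (hKA : ∀ v ∈ K, e v ∉ A) (hKC : ∀ v ∈ K, e v ∉ C) (hAC : Disjoint A C)
    (hKK : ∀ u ∈ K, ∀ v ∈ K, G.Adj u v → Γ.Adj (e u) (e v))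
    (hKPadj : ∀ u ∈ K, ∀ b ∈ P, G.Adj u b → Γ.Adj (e u) (e b))
    (hz : ∀ u ∈ K, (∃ b, b ∉ K ∧ b ∉ P ∧ G.Adj u b) → ∃ y, (y ∈ Rest h A P e ∨ y ∈ C) ∧
      Γ.Adj (e u) y)
    (hC : (C = ∅ ∧ Γ.Adj p q ∧ ((∀ b ∈ P, e b ≠ p) ∨ ∀ b ∈ P, e b ≠ q)) ∨
      ((Γ.induce C).Connected ∧ (∃ x ∈ C, Γ.Adj p x) ∧ ∃ x ∈ C, Γ.Adj q x)) :
    IsMinor (TG G K P w) Γ := by
  -- order facts
  have hle : ∀ b ∈ P, ∀ c ∈ P, (w b ≤ w c ↔ h (e b) ≤ h (e c)) := by
    intro b hb c hc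
    have := hw c hc b hb
    constructor
    · intro h1
      by_contra h2
      exact absurd (this.2 (not_le.1 h2)) (not_lt.2 h1)
    · intro h1
      by_contra h2
      exact absurd (this.1 (not_le.1 h2)) (not_lt.2 h1)
  have hneh : ∀ b ∈ P, ∀ c ∈ P, b ≠ c → h (e b) ≠ h (e c) := fun b hb c hc hbc hh =>
    hbc (heP hb hc (injOn hA (hPA b hb) (hPA c hc) hh))
  obtain ⟨b0, hb0, hmin⟩ := Set.exists_min_image P (fun b => h (e b)) (Set.toFinite _) hP
  obtain ⟨b1, hb1, hmax⟩ := Set.exists_max_image P (fun b => h (e b)) (Set.toFinite _) hP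
  let IS : V → ℝ → Prop := fun b t => h (e b) ≤ t ∧ (∀ c ∈ P, h (e c) ≤ h (e b) ∨ t < h (e c)) ∧
    ∃ c ∈ P, t ≤ h (e c)
  let S : V → Set X := fun b => {x | x ∈ A ∧ IS b (h x)}
  let Lo : Set X := {x | x ∈ A ∧ h x < h (e b0)}
  let Hi : Set X := {x | x ∈ A ∧ h (e b1) < h x}
  have hRest : Rest h A P e = Lo ∪ Hi := by
    ext x
    constructor
    · rintro ⟨hx, h1 | h1⟩
      · exact Or.inl ⟨hx, h1 b0 hb0⟩
      · exact Or.inr ⟨hx, h1 b1 hb1⟩
    · rintro (⟨hx, h1⟩ | ⟨hx, h1⟩)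
      · exact ⟨hx, Or.inl fun c hc => lt_of_lt_of_le h1 (hmin c hc)⟩
      · exact ⟨hx, Or.inr fun c hc => lt_of_le_of_lt (hmax c hc) h1⟩
  have heS : ∀ b ∈ P, e b ∈ S b := fun b hb =>
    ⟨hPA b hb, le_refl _, fun c hc => le_or_gt _ _, b, hb, le_refl _⟩
  -- the neighbour below the lowest, above the highest
  have hlow : e b0 ≠ p → ∃ y ∈ Lo, Γ.Adj (e b0) y := by
    intro hne
    obtain ⟨x, hx, hRx, hlt, -⟩ := hA.prev (hPA b0 hb0) hne
    exact ⟨x, ⟨hx, hlt⟩, (hR _ _ hRx).symm⟩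
  have hhigh : e b1 ≠ q → ∃ y ∈ Hi, Γ.Adj (e b1) y := by
    intro hne
    obtain ⟨x, hx, hRx, hlt, -⟩ := hA.next _ (hPA b1 hb1) hne
    exact ⟨x, ⟨hx, hlt⟩, hR _ _ hRx⟩
  have hpLo : e b0 ≠ p → p ∈ Lo := fun hne =>
    ⟨hA.bot, lt_of_le_of_ne (hA.ge _ (hPA b0 hb0)) fun hh => hne (injOn hA (hPA b0 hb0) hA.bot hh.symm)⟩
  have hqHi : e b1 ≠ q → q ∈ Hi := fun hne =>
    ⟨hA.top, lt_of_le_of_ne (hA.le _ (hPA b1 hb1)) fun hh => hne (injOn hA (hPA b1 hb1) hA.top hh)⟩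
  have hLoC : Lo.Nonempty → (Γ.induce Lo).Connected := fun ⟨x, hx⟩ =>
    arc_conn hR hA (fun t => t < h (e b0)) (fun a b c _ h1 _ h2 => lt_of_le_of_lt h1 h2) ⟨x, hx⟩
  have hHiC : Hi.Nonempty → (Γ.induce Hi).Connected := fun ⟨x, hx⟩ =>
    arc_conn hR hA (fun t => h (e b1) < t) (fun a b c h1 _ h2 _ => lt_of_lt_of_le h2 h1) ⟨x, hx⟩
  have hLop : Lo.Nonempty → e b0 ≠ p := by
    rintro ⟨x, hx, hlt⟩ hh
    have := hA.ge x hx
    rw [← hh] at this
    linarith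
  have hHiq : Hi.Nonempty → e b1 ≠ q := by
    rintro ⟨x, hx, hlt⟩ hh
    have := hA.le x hx
    rw [← hh] at this
    linarith
  -- the branch set of `z`
  have hZ : (Γ.induce (Rest h A P e ∪ C)).Connected ∧ (∃ y ∈ Rest h A P e ∪ C, Γ.Adj (e b0) y) ∧
      ∃ y ∈ Rest h A P e ∪ C, Γ.Adj (e b1) y := by
    rw [hRest]
    rcases hC with ⟨hC0, hpq, hor⟩ | ⟨hCc, ⟨x, hx, hpx⟩, ⟨y, hy, hqy⟩⟩
    · -- edge `p q`
      subst hC0
      rw [Set.union_empty]
      by_cases h0 : e b0 = p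
      · have h1 : e b1 ≠ q := by
          rcases hor with h2 | h2
          · exact absurd h0 (h2 b0 hb0)
          · exact h2 b1 hb1
        have h2 : Lo = ∅ := by
          by_contra hh
          exact hLop (Set.nonempty_iff_ne_empty.2 hh) h0
        have h3 := hqHi h1
        rw [h2, Set.empty_union]
        refine ⟨hHiC ⟨_, h3⟩, ⟨q, h3, h0 ▸ hpq⟩, ?_⟩
        exact hhigh h1
      · have h2 := hpLo h0
        by_cases h1 : e b1 = q
        · have h3 : Hi = ∅ := by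
            by_contra hh
            exact hHiq (Set.nonempty_iff_ne_empty.2 hh) h1
          rw [h3, Set.union_empty]
          exact ⟨hLoC ⟨_, h2⟩, hlow h0, ⟨p, h2, h1 ▸ hpq.symm⟩⟩
        · have h3 := hqHi h1
          obtain ⟨y1, hy1, hy1'⟩ := hlow h0
          obtain ⟨y2, hy2, hy2'⟩ := hhigh h1
          exact ⟨connected_induce_union (hLoC ⟨_, h2⟩).preconnected (hHiC ⟨_, h3⟩).preconnected
            h2 h3 hpq, ⟨y1, Or.inl hy1, hy1'⟩, ⟨y2, Or.inr hy2, hy2'⟩⟩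
    · have hLC : (Γ.induce (Lo ∪ C)).Connected := by
        by_cases h0 : e b0 = p
        · have h2 : Lo = ∅ := by
            by_contra hh
            exact hLop (Set.nonempty_iff_ne_empty.2 hh) h0
          rw [h2, Set.empty_union]
          exact hCc
        · exact connected_induce_union (hLoC ⟨_, hpLo h0⟩).preconnected hCc.preconnected
            (hpLo h0) hx hpx
      have e1 : Lo ∪ Hi ∪ C = Hi ∪ (Lo ∪ C) := by
        rw [Set.union_comm Lo Hi, Set.union_assoc]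
      rw [e1]
      refine ⟨?_, ?_, ?_⟩
      · by_cases h1 : e b1 = q
        · have h3 : Hi = ∅ := by
            by_contra hh
            exact hHiq (Set.nonempty_iff_ne_empty.2 hh) h1
          rw [h3, Set.empty_union]
          exact hLC
        · exact connected_induce_union (hHiC ⟨_, hqHi h1⟩).preconnected hLC.preconnected
            (hqHi h1) (Or.inr hy) hqy
      · by_cases h0 : e b0 = p
        · exact ⟨x, Or.inr (Or.inr hx), h0 ▸ hpx⟩
        · obtain ⟨y1, hy1, hy1'⟩ := hlow h0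
          exact ⟨y1, Or.inr (Or.inl hy1), hy1'⟩
      · by_cases h1 : e b1 = q
        · exact ⟨y, Or.inr (Or.inr hy), h1 ▸ hqy⟩
        · obtain ⟨y1, hy1, hy1'⟩ := hhigh h1
          exact ⟨y1, Or.inl hy1, hy1'⟩
  refine tg_minor hKP (fun v _ => e v) S (Rest h A P e ∪ C) (fun u hu v hv hh => heK hu hv hh)
    ?_ hZ.1 ?_ ?_ ?_ ?_ (fun u hu v hv hh => hKK u hu v hv hh)
    (fun u hu b hb hh => ⟨e b, heS b hb, hKPadj u hu b hb hh⟩) ?_ ?_ ?_ ?_
  · intro b hb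
    refine arc_conn hR hA (IS b) ?_ ⟨e b, heS b hb⟩
    rintro t1 t2 t3 h12 h23 ⟨a1, a2, a3⟩ ⟨c1, c2, c, hc, c3⟩
    exact ⟨a1.trans h12, fun c hc => (c2 c hc).imp_right fun hh => lt_of_le_of_lt h23 hh,
      c, hc, h23.trans c3⟩
  · intro b hb c hc hbc
    refine Set.disjoint_left.2 ?_
    rintro x ⟨-, a1, a2, -⟩ ⟨-, c1, c2, -⟩
    rcases lt_or_gt_of_ne (hneh b hb c hc hbc) with hlt | hlt
    · rcases a2 c hc with hh | hh <;> linarith
    · rcases c2 b hb with hh | hh <;> linarith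
  · intro b hb
    refine Set.disjoint_left.2 ?_
    rintro x ⟨hxA, a1, a2, c, hc, a3⟩ (⟨-, hh | hh⟩ | hxC)
    · have := hh b hb
      linarith
    · have := hh c hc
      linarith
    · exact Set.disjoint_left.1 hAC hxA hxC
  · intro u hu b hb hh
    exact hKA u hu hh.1
  · rintro u hu (hh | hh)
    · exact hKA u hu hh.1
    · exact hKC u hu hh
  · rintro b c ⟨hb, hc, hbc, hall⟩
    have hbc' := (hw b hb c hc).1 hbc
    have hcp : e c ≠ p := fun hh => by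
      have := hA.ge _ (hPA b hb)
      rw [← hh] at this
      linarith
    obtain ⟨x, hx, hRx, hlt, hax⟩ := hA.prev (hPA c hc) hcp
    refine ⟨x, ⟨hx, ?_, ?_, c, hc, hlt.le⟩, e c, heS c hc, hR _ _ hRx⟩
    · exact (hax _ (hPA b hb)).resolve_right (by linarith)
    · intro c' hc'
      rcases hall c' hc' with hh | hh
      · exact Or.inl ((hle c' hc' b hb).1 hh)
      · exact Or.inr (lt_of_lt_of_le hlt ((hle c hc c' hc').1 hh))
  · intro b hb hbm
    have : b = b0 := by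
      by_contra hne
      exact hneh b hb b0 hb0 hne (le_antisymm ((hle b hb b0 hb0).1 (hbm b0 hb0)) (hmin b hb))
    subst this
    obtain ⟨y, hy, hy'⟩ := hZ.2.1
    exact ⟨e b, heS b hb, y, hy, hy'⟩
  · intro b hb hbm
    have : b = b1 := by
      by_contra hne
      exact hneh b hb b1 hb1 hne (le_antisymm (hmax b hb) ((hle b1 hb1 b hb).1 (hbm b1 hb1)))
    subst this
    obtain ⟨y, hy, hy'⟩ := hZ.2.2
    exact ⟨e b, heS b hb, y, hy, hy'⟩
  · intro u hu hh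
    obtain ⟨y, hy, hy'⟩ := hz u hu hh
    exact ⟨y, hy, hy'⟩

end Vale.Agent.P235.LL.H834
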