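/-
P235-LL (helper834).  Section (3): the two chains around a component and the planarity of all
`T(K,P')`, `P'` a convex part of a chain.
-/
import Vale.Agent.P235.LL.H834.ArcMin
import Vale.Agent.P235.LL.H844.Cyc
import Vale.Agent.P235.H555.Minor

set_option linter.all false
set_option autoImplicit false

namespace Vale.Agent.P235.LL.H834

open SimpleGraph H134 Relation

/-- neighbours of `K` outside `K` -/
def nb {V : Type} (G : SimpleGraph V) (K : Set V) : Set V := {b | b ∉ K ∧ ∃ v ∈ K, G.Adj v b}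

/-- connected and plane -/
def Plc {W : Type} (Γ : SimpleGraph W) : Prop :=
  Γ.Connected ∧ ∃ σ : Equiv.Perm Γ.Dart, PlaneMap Γ σ

/-- `T(K,P)` is connected -/
theorem tg_conn {V : Type} [Finite V] {G : SimpleGraph V} {K P : Set V} {w : V → ℝ}
    (hK : (G.induce K).Connected) (hP : P.Nonempty) (hPK : P ⊆ nb G K) :
    (TG G K P w).Connected := by
  classical
  let f : G.induce K →g TG G K P w :=
    { toFun := fun v => some ⟨v.1, Or.inl v.2⟩
      map_rel' := fun {a b} h => ⟨fun hh => h.ne (Subtype.ext hh), Or.inl ⟨h, Or.inl a.2⟩⟩ }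
  obtain ⟨v0⟩ := hK.nonempty
  have hv : ∀ v (hv : v ∈ K), (TG G K P w).Reachable (some ⟨v, Or.inl hv⟩)
      (some ⟨v0.1, Or.inl v0.2⟩) := fun v hv => (hK.preconnected ⟨v, hv⟩ v0).map f
  have hb : ∀ b (hb : b ∈ P), (TG G K P w).Reachable (some ⟨b, Or.inr hb⟩)
      (some ⟨v0.1, Or.inl v0.2⟩) := by
    intro b hb
    obtain ⟨hbK, v, hvK, hadj⟩ := hPK hb
    refine (Adj.reachable ?_).trans (hv v hvK)
    exact ⟨hadj.ne.symm, Or.inl ⟨hadj.symm, Or.inr hvK⟩⟩
  obtain ⟨b0, hb0, hmin⟩ := Set.exists_min_image P w (Set.toFinite _) hP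
  have hz : (TG G K P w).Reachable none (some ⟨v0.1, Or.inl v0.2⟩) :=
    (Adj.reachable (show (TG G K P w).Adj none (some ⟨b0, Or.inr hb0⟩) from
      Or.inl ⟨hb0, hmin⟩)).trans (hb b0 hb0)
  have hall : ∀ x, (TG G K P w).Reachable x (some ⟨v0.1, Or.inl v0.2⟩) := by
    rintro (_ | ⟨v, h | h⟩)
    · exact hz
    · exact hv v h
    · exact hb v h
  have : Nonempty (Option {v : V // v ∈ K ∨ v ∈ P}) := ⟨none⟩
  exact ⟨fun x y => (hall x).trans (hall y).symm⟩

theorem tg_plc {V X : Type} [Finite V] [Finite X] {G : SimpleGraph V} {Γ : SimpleGraph X}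
    {K P : Set V} {w : V → ℝ} (hΓ : Plc Γ) (hK : (G.induce K).Connected) (hP : P.Nonempty)
    (hPK : P ⊆ nb G K) (hm : IsMinor (TG G K P w) Γ) : Plc (TG G K P w) := by
  have hc := tg_conn (w := w) hK hP hPK
  refine ⟨hc, H555.planeMap_of_isMinor hΓ.1 hc ?_ hm hΓ.2⟩
  obtain ⟨b, hb⟩ := hP
  have : Nontrivial (Option {v : V // v ∈ K ∨ v ∈ P}) :=
    ⟨none, some ⟨b, Or.inr hb⟩, by simp⟩
  exact Finite.one_lt_card

/-- a vertex of `G` as a vertex of `T(U,P)` -/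
noncomputable def emb {V : Type} (U P : Set V) (v : V) : Option {v : V // v ∈ U ∨ v ∈ P} := by
  classical
  exact if h : v ∈ U ∨ v ∈ P then some ⟨v, h⟩ else none

theorem emb_eq {V : Type} {U P : Set V} {v : V} (h : v ∈ U ∨ v ∈ P) :
    emb U P v = some ⟨v, h⟩ := by
  unfold emb
  rw [dif_pos h]

theorem emb_inj {V : Type} {U P : Set V} {u v : V} (hu : u ∈ U ∨ u ∈ P) (hv : v ∈ U ∨ v ∈ P)
    (h : emb U P u = emb U P v) : u = v := by
  rw [emb_eq hu, emb_eq hv] at h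
  exact congrArg Subtype.val (Option.some.inj h)

theorem conn_image {V X : Type} {G : SimpleGraph V} {Γ : SimpleGraph X} {K : Set V} (e : V → X)
    (he : ∀ u ∈ K, ∀ v ∈ K, G.Adj u v → Γ.Adj (e u) (e v)) (hK : (G.induce K).Connected) :
    (Γ.induce (e '' K)).Connected := by
  refine Connected.map (G := G.induce K) (H := Γ.induce (e '' K))
    { toFun := fun v => ⟨e v.1, v.1, v.2, rfl⟩
      map_rel' := fun {a b} h => he _ a.2 _ b.2 h } ?_ hK
  rintro ⟨_, v, hv, rfl⟩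
  exact ⟨⟨v, hv⟩, rfl⟩

section rtg

variable {X : Type} [Finite X] {R : X → X → Prop} {h : X → ℝ} {p q : X} {A : Set X}

theorem arc_rtg (hA : Arc R h p q A) {y : X} (hy : y ∈ A) : ∀ n : ℕ, ∀ x ∈ A, h x ≤ h y →
    {z | z ∈ A ∧ h x < h z}.ncard = n → ReflTransGen R x y := by
  intro n
  induction n using Nat.strong_induction_on with
  | _ n ih =>
  intro x hx hxy hn
  by_cases hxy' : x = y
  · rw [hxy']
  have hlt : h x < h y := lt_of_le_of_ne hxy fun e => hxy' (hA.inj x hx y hy e)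
  have hxq : x ≠ q := fun e => by
    have := hA.le y hy
    rw [← e] at this
    linarith
  obtain ⟨z, hz, hR, hlt', hall⟩ := hA.next x hx hxq
  have h2 : h z ≤ h y := (hall y hy).resolve_left (by linarith)
  have h3 : {t | t ∈ A ∧ h z < h t}.ncard < n := by
    rw [← hn]
    refine Set.ncard_lt_ncard ⟨fun t ht => ⟨ht.1, hlt'.trans ht.2⟩, fun hh => ?_⟩
      (Set.toFinite _)
    exact lt_irrefl _ (hh (show z ∈ {t | t ∈ A ∧ h x < h t} from ⟨hz, hlt'⟩)).2
  exact ReflTransGen.head hR (ih _ h3 z hz h2 rfl)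

end rtg

/-- planarity of `T(K,P')` from one of the two arcs -/
theorem side_plc {V : Type} [Finite V] {G : SimpleGraph V} {U P M : Set V} {w c : V → ℝ}
    (hUP : Disjoint U P) (hMU : M ⊆ U) (hΓ : Plc (TG G U P w))
    {R : Option {v : V // v ∈ U ∨ v ∈ P} → Option {v : V // v ∈ U ∨ v ∈ P} → Prop}
    {h : Option {v : V // v ∈ U ∨ v ∈ P} → ℝ} {p q : Option {v : V // v ∈ U ∨ v ∈ P}}
    {A C : Set (Option {v : V // v ∈ U ∨ v ∈ P})} (hh : ∀ v, h (some v) = c v)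
    (hR : ∀ x y, R x y → (TG G U P w).Adj x y) (hA : Arc R h p q A)
    {K P' : Set V} (hKU : K ⊆ U) (hKM : Disjoint K M) (hKc : (G.induce K).Connected)
    (hKnb : ∀ v ∈ K, ∀ y, G.Adj v y → y ∈ K ∨ y ∈ M ∨ y ∈ P)
    (hP'K : P' ⊆ nb G K) (hP' : P'.Nonempty) (hP'A : ∀ b ∈ P', emb U P b ∈ A)
    (hKA : ∀ v ∈ K, emb U P v ∉ A) (hKC : ∀ v ∈ K, emb U P v ∉ C) (hAC : Disjoint A C)
    (hz : ∀ b ∈ nb G K, b ∉ P' → emb U P b ∈ Rest h A P' (emb U P) ∨ emb U P b ∈ C)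
    (hC : (C = ∅ ∧ (TG G U P w).Adj p q ∧ ((∀ b ∈ P', emb U P b ≠ p) ∨
      ∀ b ∈ P', emb U P b ≠ q)) ∨
      (((TG G U P w).induce C).Connected ∧ (∃ x ∈ C, (TG G U P w).Adj p x) ∧
        ∃ x ∈ C, (TG G U P w).Adj q x)) : Plc (TG G K P' c) := by
  have hKUP : ∀ v ∈ K, v ∈ U ∨ v ∈ P := fun v hv => Or.inl (hKU hv)
  have hnbM : ∀ b ∈ nb G K, b ∈ M ∨ b ∈ P := by
    rintro b ⟨hbK, v, hv, hadj⟩
    exact (hKnb v hv b hadj).resolve_left hbK
  have hnbUP : ∀ b ∈ nb G K, b ∈ U ∨ b ∈ P := fun b hb => (hnbM b hb).imp_left fun h => hMU h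
  have hadj : ∀ u ∈ K, ∀ v, (v ∈ U ∨ v ∈ P) → G.Adj u v →
      (TG G U P w).Adj (emb U P u) (emb U P v) := by
    intro u hu v hv huv
    rw [emb_eq (hKUP u hu), emb_eq hv]
    exact ⟨huv.ne, Or.inl ⟨huv, Or.inl (hKU hu)⟩⟩
  refine tg_plc hΓ hKc hP' hP'K ?_
  refine arc_minor hR hA (C := C) ?_ (emb U P) ?_ ?_ hP'A hP' ?_ hKA hKC hAC ?_ ?_ ?_ hC
  · refine Set.disjoint_left.2 fun v hv hv' => (hP'K hv').1 hv
  · intro u hu v hv e
    exact emb_inj (hKUP u hu) (hKUP v hv) e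
  · intro u hu v hv e
    exact emb_inj (hnbUP u (hP'K hu)) (hnbUP v (hP'K hv)) e
  · intro b hb b' hb'
    rw [emb_eq (hnbUP b (hP'K hb)), emb_eq (hnbUP b' (hP'K hb')), hh, hh]
  · intro u hu v hv huv
    exact hadj u hu v (hKUP v hv) huv
  · intro u hu b hb huv
    exact hadj u hu b (hnbUP b (hP'K hb)) huv
  · rintro u hu ⟨b, hbK, hbP, hub⟩
    have hb : b ∈ nb G K := ⟨hbK, u, hu, hub⟩
    exact ⟨emb U P b, hz b hb hbP, hadj u hu b (hnbUP b hb) hub⟩

/-- **section (3), core**: the neighbours of `K` form two chains, and `T(K,P')` is plane for every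
convex part `P'` of a chain -/
theorem core {V : Type} [Finite V] {G : SimpleGraph V} {U P M : Set V} {w c : V → ℝ}
    {E : V → V → Prop} {b0 : V} (hUP : Disjoint U P) (hMU : M ⊆ U) (hb0 : b0 ∈ P)
    (hΓ : Plc (TG G U P w))
    (hE : ∀ u v, E u v → (u ∈ M ∨ u ∈ P) ∧ (v ∈ M ∨ v ∈ P) ∧ c u < c v ∧
      ((G.Adj u v ∧ (u ∈ U ∨ v ∈ U)) ∨ ConsIn P w u v))
    (hup : ∀ v, (v ∈ M ∨ v ∈ P) → TZ G U P w v ∨ ∃ y, E v y)
    (hdn : ∀ v, (v ∈ M ∨ v ∈ P) → v ≠ b0 → ∃ y, E y v) (hTZ0 : TZ G U P w b0)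
    {K : Set V} (hKU : K ⊆ U) (hKM : Disjoint K M) (hKc : (G.induce K).Connected)
    (hKnb : ∀ v ∈ K, ∀ y, G.Adj v y → y ∈ K ∨ y ∈ M ∨ y ∈ P) (hne : (nb G K).Nonempty) :
    ∃ N : Fin 2 → Set V, (N 0).Nonempty ∧ Disjoint (N 0) (N 1) ∧
      (∀ b, b ∈ nb G K ↔ b ∈ N 0 ∨ b ∈ N 1) ∧
      (N 1 = ∅ ∨ ((N 1).Nonempty ∧ b0 ∉ N 1 ∧ ∃ y ∈ N 0, y ≠ b0)) ∧
      ∀ i, Set.InjOn c (N i) ∧ (∀ x ∈ N i, ∀ y ∈ N i, c x ≤ c y → ReflTransGen E x y) ∧
        ∀ P' ⊆ N i, P'.Nonempty →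
          (∀ x ∈ P', ∀ y ∈ N i, ∀ z ∈ P', c x ≤ c y → c y ≤ c z → y ∈ P') →
          Plc (TG G K P' c) := by
  classical
  have hneUP : ∀ v ∈ U, v ∉ P := fun v h1 h2 => Set.disjoint_left.1 hUP h1 h2
  have hMP : ∀ v, (v ∈ M ∨ v ∈ P) → v ∈ U ∨ v ∈ P := fun v h => h.imp_left fun h => hMU h
  obtain ⟨H, hH⟩ : ∃ H : ℝ, ∀ v, c v < H := by
    have := Fintype.ofFinite V
    refine ⟨(∑ v, |c v|) + 1, fun v => ?_⟩
    have h1 : |c v| ≤ ∑ v, |c v| := Finset.single_le_sum (f := fun v => |c v|)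
      (fun i _ => abs_nonneg _) (Finset.mem_univ v)
    have h2 := le_abs_self (c v)
    linarith
  let X := Option {v : V // v ∈ U ∨ v ∈ P}
  let h : X → ℝ := fun x => x.elim H fun v => c v
  let L : Set X := {x | match x with
    | none => True
    | some v => (v : V) ∈ M ∨ (v : V) ∈ P}
  let R : X → X → Prop := fun x y => match x, y with
    | some u, some v => E u v
    | some v, none => TZ G U P w v ∧ ((v : V) ∈ M ∨ (v : V) ∈ P)
    | none, _ => False
  have hRadj : ∀ x y, R x y → (TG G U P w).Adj x y := by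
    rintro (_ | u) (_ | v) hxy
    · exact hxy.elim
    · exact hxy.elim
    · exact hxy.1
    · obtain ⟨h1, h2, h3, h4⟩ := hE _ _ hxy
      refine ⟨fun e => ?_, h4.elim Or.inl fun h5 => Or.inr (Or.inl h5)⟩
      rw [e] at h3
      exact lt_irrefl _ h3
  have hU : ∀ x y, R x y → (TG G U P w).Adj x y ∧ h x < h y ∧ x ∈ L ∧ y ∈ L := by
    intro x y hxy
    refine ⟨hRadj x y hxy, ?_⟩
    rcases x with _ | u <;> rcases y with _ | v
    · exact hxy.elim
    · exact hxy.elim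
    · exact ⟨hH u, hxy.2, trivial⟩
    · obtain ⟨h1, h2, h3, h4⟩ := hE _ _ hxy
      exact ⟨h3, h1, h2⟩
  let s : X := some ⟨b0, Or.inr hb0⟩
  let t : X := none
  have hsL : s ∈ L := Or.inr hb0
  have htL : t ∈ L := trivial
  have hst : (TG G U P w).Adj s t := hTZ0
  have hlow : ∀ x ∈ L, x ≠ s → ∃ u, R u x := by
    rintro (_ | v) hx hxs
    · exact ⟨s, hTZ0, Or.inr hb0⟩
    · have hvb : (v : V) ≠ b0 := fun e => hxs (congrArg some (Subtype.ext e))
      obtain ⟨y, hy⟩ := hdn v hx hvb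
      exact ⟨some ⟨y, hMP y (hE _ _ hy).1⟩, hy⟩
  have hhigh : ∀ x ∈ L, x ≠ t → ∃ y, R x y := by
    rintro (_ | v) hx hxt
    · exact absurd rfl hxt
    · rcases hup v hx with h1 | ⟨y, hy⟩
      · exact ⟨none, h1, hx⟩
      · exact ⟨some ⟨y, hMP y (hE _ _ hy).2.1⟩, hy⟩
  have hKUP : ∀ v ∈ K, v ∈ U ∨ v ∈ P := fun v hv => Or.inl (hKU hv)
  have hKL : ∀ v ∈ K, emb U P v ∉ L := by
    intro v hv hv'
    rw [emb_eq (hKUP v hv)] at hv'
    rcases hv' with h1 | h1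
    · exact Set.disjoint_left.1 hKM hv h1
    · exact hneUP v (hKU hv) h1
  have hKX : ((TG G U P w).induce (emb U P '' K)).Connected := by
    refine conn_image _ ?_ hKc
    intro u hu v hv huv
    rw [emb_eq (hKUP u hu), emb_eq (hKUP v hv)]
    exact ⟨huv.ne, Or.inl ⟨huv, Or.inl (hKU hu)⟩⟩
  have hKLd : Disjoint (emb U P '' K) L := by
    refine Set.disjoint_left.2 ?_
    rintro _ ⟨v, hv, rfl⟩ hL
    exact hKL v hv hL
  -- neighbours
  have hnbM : ∀ b ∈ nb G K, b ∈ M ∨ b ∈ P := by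
    rintro b ⟨hbK, v, hv, hadj⟩
    exact (hKnb v hv b hadj).resolve_left hbK
  have hnbX : ∀ b ∈ nb G K, emb U P b ∈ L ∧ ∃ x ∈ emb U P '' K, (TG G U P w).Adj x (emb U P b) := by
    intro b hb
    have h1 := hnbM b hb
    obtain ⟨hbK, v, hv, hadj⟩ := hb
    refine ⟨?_, emb U P v, ⟨v, hv, rfl⟩, ?_⟩
    · rw [emb_eq (hMP b h1)]
      exact h1
    · rw [emb_eq (hKUP v hv), emb_eq (hMP b h1)]
      exact ⟨hadj.ne, Or.inl ⟨hadj, Or.inl (hKU hv)⟩⟩
  have hXnb : ∀ x ∈ L, (∃ y ∈ emb U P '' K, (TG G U P w).Adj y x) →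
      ∃ b ∈ nb G K, x = emb U P b := by
    rintro (_ | b) hx ⟨_, ⟨v, hv, rfl⟩, hadj⟩
    · rw [emb_eq (hKUP v hv)] at hadj
      rcases hadj with h1 | h1 | ⟨-, b, hb1, hb2, hb3⟩
      · exact absurd h1.1 (hneUP v (hKU hv))
      · exact absurd h1.1 (hneUP v (hKU hv))
      · rcases hKnb v hv b hb3 with h2 | h2 | h2
        · exact absurd (hKU h2) hb1
        · exact absurd (hMU h2) hb1
        · exact absurd h2 hb2
    · rw [emb_eq (hKUP v hv)] at hadj
      obtain ⟨h1, ⟨h2, -⟩ | h2 | h2⟩ := hadj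
      · refine ⟨b, ⟨?_, v, hv, h2⟩, (emb_eq b.2).symm⟩
        intro hbK
        refine hKL b hbK ?_
        rw [emb_eq b.2]
        exact hx
      · exact absurd h2.1 (hneUP v (hKU hv))
      · exact absurd h2.2.1 (hneUP v (hKU hv))
  obtain ⟨A, B, p, q, hpq, hA, hAL, hBL, hAB, hcov, hcase⟩ :=
    cyc hΓ.1 hΓ.2 hU hsL htL hlow hhigh hst hKX hKLd
  -- `s` is the lowest vertex of `L`
  have hsmin : ∀ x ∈ L, x ≠ s → h s < h x := by
    have hfin : ({x | x ∈ L} : Set X).Finite := Set.toFinite _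
    obtain ⟨x0, hx0, hmin⟩ := Set.exists_min_image {x | x ∈ L} h hfin ⟨s, hsL⟩
    have hx0s : x0 = s := by
      by_contra hcon
      obtain ⟨u, hu⟩ := hlow x0 hx0 hcon
      have h1 := hU _ _ hu
      have h2 := hmin u h1.2.2.1
      linarith [h1.2.1]
    intro x hx hxs
    obtain ⟨u, hu⟩ := hlow x hx hxs
    have h1 := hU _ _ hu
    have h2 := hmin u h1.2.2.1
    rw [hx0s] at h2
    linarith [h1.2.1]
  -- lifting chains
  have hrtg : ∀ x y : X, ReflTransGen R x y → ∀ u v, x = some u → y = some v →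
      ReflTransGen E (u : V) (v : V) := by
    intro x y hxy
    induction hxy using ReflTransGen.head_induction_on with
    | refl =>
      intro u v e1 e2
      have : u = v := Option.some.inj (e1.symm.trans e2)
      rw [this]
    | head hxz hzy ih =>
      rename_i x z
      intro u v e1 e2
      subst e1
      rcases z with _ | z
      · exfalso
        rcases ReflTransGen.cases_head hzy with h1 | ⟨y', h1, -⟩
        · rw [e2] at h1
          cases h1
        · exact h1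
      · exact ReflTransGen.head hxz (ih z v rfl e2)
  have hchain : ∀ {D : Set X} {p' q' : X}, Arc R h p' q' D → ∀ x y, (x ∈ M ∨ x ∈ P) →
      (y ∈ M ∨ y ∈ P) → emb U P x ∈ D → emb U P y ∈ D → c x ≤ c y → ReflTransGen E x y := by
    intro D p' q' hD x y hx hy hxD hyD hxy
    have h1 := emb_eq (hMP x hx)
    have h2 := emb_eq (hMP y hy)
    refine hrtg _ _ (arc_rtg hD hyD _ _ hxD ?_ rfl) _ _ h1 h2
    rw [h1, h2]
    exact hxy
  have hinj : ∀ {D : Set X} {p' q' : X}, Arc R h p' q' D → ∀ x y, (x ∈ M ∨ x ∈ P) →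
      (y ∈ M ∨ y ∈ P) → emb U P x ∈ D → emb U P y ∈ D → c x = c y → x = y := by
    intro D p' q' hD x y hx hy hxD hyD hxy
    refine emb_inj (hMP x hx) (hMP y hy) (hD.inj _ hxD _ hyD ?_)
    rw [emb_eq (hMP x hx), emb_eq (hMP y hy)]
    exact hxy
  -- convexity: the other neighbours on the arc are strictly above or below `P'`
  have hrest : ∀ {D : Set X} {P' N : Set V}, P' ⊆ N → (∀ b ∈ N, b ∈ M ∨ b ∈ P) →
      (∀ x ∈ P', ∀ y ∈ N, ∀ z ∈ P', c x ≤ c y → c y ≤ c z → y ∈ P') → ∀ b ∈ N, b ∉ P' →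
      emb U P b ∈ D → emb U P b ∈ Rest h D P' (emb U P) := by
    intro D P' N hP'N hNM hconv b hbN hbP' hbD
    refine ⟨hbD, ?_⟩
    by_contra hcon
    push Not at hcon
    obtain ⟨⟨x, hx, hxb⟩, z, hz, hzb⟩ := hcon
    refine hbP' (hconv x hx b hbN z hz ?_ ?_)
    · rw [emb_eq (hMP b (hNM b hbN)), emb_eq (hMP x (hNM x (hP'N hx)))] at hxb
      exact hxb
    · rw [emb_eq (hMP b (hNM b hbN)), emb_eq (hMP z (hNM z (hP'N hz)))] at hzb
      exact hzb
  let N0 : Set V := {b | b ∈ nb G K ∧ emb U P b ∈ A}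
  let N1 : Set V := {b | b ∈ nb G K ∧ emb U P b ∉ A}
  have hN0M : ∀ b ∈ N0, b ∈ M ∨ b ∈ P := fun b hb => hnbM b hb.1
  have hN1M : ∀ b ∈ N1, b ∈ M ∨ b ∈ P := fun b hb => hnbM b hb.1
  have hN1B : ∀ b ∈ N1, emb U P b ∈ B := fun b hb =>
    (hcov _ (hnbX b hb.1).1 (hnbX b hb.1).2).resolve_left hb.2
  have hh : ∀ v : {v : V // v ∈ U ∨ v ∈ P}, h (some v) = c v := fun v => rfl
  have hKA : ∀ v ∈ K, emb U P v ∉ A := fun v hv h1 => hKL v hv (hAL h1)
  have hKB : ∀ v ∈ K, emb U P v ∉ B := fun v hv h1 => hKL v hv (hBL h1)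
  refine ⟨![N0, N1], ?_, ?_, ?_, ?_, ?_⟩
  · -- `N 0` nonempty
    show N0.Nonempty
    rcases hcase with ⟨-, ⟨y, hy, -, -, hyK⟩, -⟩ | ⟨-, -, -, hall⟩
    · obtain ⟨b, hb, rfl⟩ := hXnb y (hAL hy) hyK
      exact ⟨b, hb, hy⟩
    · obtain ⟨b, hb⟩ := hne
      exact ⟨b, hb, hall _ (hnbX b hb).1 (hnbX b hb).2⟩
  · exact Set.disjoint_left.2 fun b h1 h2 => h2.2 h1.2
  · intro b
    constructor
    · intro hb
      by_cases h1 : emb U P b ∈ A
      · exact Or.inl ⟨hb, h1⟩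
      · exact Or.inr ⟨hb, h1⟩
    · rintro (h1 | h1)
      · exact h1.1
      · exact h1.1
  · show N1 = ∅ ∨ (N1.Nonempty ∧ b0 ∉ N1 ∧ ∃ y ∈ N0, y ≠ b0)
    rcases hcase with ⟨hB, ⟨y, hy, hyp, hyq, hyK⟩, ⟨z, hz, hzp, hzq, hzK⟩⟩ | ⟨-, -, -, hall⟩
    · right
      obtain ⟨b, hb, rfl⟩ := hXnb y (hAL hy) hyK
      obtain ⟨b', hb', rfl⟩ := hXnb z (hBL hz) hzK
      refine ⟨⟨b', hb', fun h1 => ?_⟩, ?_, b, ⟨hb, hy⟩, ?_⟩
      · rcases hAB _ h1 hz with h2 | h2
        · exact hzp h2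
        · exact hzq h2
      · intro h1
        have h2 : emb U P b0 = s := emb_eq (Or.inr hb0)
        have h3 := hN1B _ h1
        rw [h2] at h3
        have h4 : p = s := by
          by_contra hcon
          have h5 := hsmin p (hAL hA.bot) hcon
          have h6 := hB.ge _ h3
          linarith
        exact h1.2 (by rw [h2, ← h4]; exact hA.bot)
      · rintro rfl
        have h2 : emb U P b = s := emb_eq (Or.inr hb0)
        have h3 : p ≠ s := fun e => hyp (by rw [h2, e])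
        have h4 := hsmin p (hAL hA.bot) h3
        have h5 := hA.ge _ hy
        rw [h2] at h5
        linarith
    · left
      ext b
      simp only [Set.mem_empty_iff_false, iff_false]
      intro hb
      exact hb.2 (hall _ (hnbX b hb.1).1 (hnbX b hb.1).2)
  · intro i
    rcases hcase with ⟨hB, ⟨y, hy, hyp, hyq, hyK⟩, ⟨z, hz, hzp, hzq, hzK⟩⟩ | ⟨rfl, rfl, rfl, hall⟩
    · -- two arcs
      have hAi : h p < h y ∧ h y < h q := ⟨hA.bot_lt hy hyp, hA.lt_top hy hyq⟩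
      have hBi : h p < h z ∧ h z < h q := ⟨hB.bot_lt hz hzp, hB.lt_top hz hzq⟩
      -- interior of an arc as the set `C`
      have hCC : ∀ {D : Set X}, Arc R h p q D → ∀ y ∈ D, h p < h y → h y < h q →
          (((TG G U P w).induce {x | x ∈ D ∧ (h p < h x ∧ h x < h q)}).Connected ∧
          (∃ x ∈ {x | x ∈ D ∧ (h p < h x ∧ h x < h q)}, (TG G U P w).Adj p x) ∧
          ∃ x ∈ {x | x ∈ D ∧ (h p < h x ∧ h x < h q)}, (TG G U P w).Adj q x) := by
        intro D hD y hy h1 h2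
        refine ⟨arc_conn hRadj hD (fun r => h p < r ∧ r < h q)
          (fun a b c hab hbc ha hc => ⟨lt_of_lt_of_le ha.1 hab, lt_of_le_of_lt hbc hc.2⟩)
          ⟨y, hy, h1, h2⟩, ?_, ?_⟩
        · have hpq' : p ≠ q := fun e => by rw [e] at hpq; exact lt_irrefl _ hpq
          obtain ⟨x, hx, hRx, hlt, hgap⟩ := hD.next p hD.bot hpq'
          exact ⟨x, ⟨hx, hlt, lt_of_le_of_lt ((hgap y hy).resolve_left (by linarith)) h2⟩,
            hRadj _ _ hRx⟩
        · have hpq' : q ≠ p := fun e => by rw [e] at hpq; exact lt_irrefl _ hpq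
          obtain ⟨x, hx, hRx, hlt, hgap⟩ := hD.prev hD.top hpq'
          exact ⟨x, ⟨hx, lt_of_lt_of_le h1 ((hgap y hy).resolve_right (by linarith)), hlt⟩,
            (hRadj _ _ hRx).symm⟩
      have hdis : ∀ x, x ∈ A → x ∈ B → ¬ (h p < h x ∧ h x < h q) := by
        intro x hxA hxB ⟨h1, h2⟩
        rcases hAB x hxA hxB with e | e
        · rw [e] at h1
          exact lt_irrefl _ h1
        · rw [e] at h2
          exact lt_irrefl _ h2
      fin_cases i
      · show Set.InjOn c N0 ∧ (∀ x ∈ N0, ∀ y ∈ N0, c x ≤ c y → ReflTransGen E x y) ∧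
          ∀ P' ⊆ N0, P'.Nonempty → (∀ x ∈ P', ∀ y ∈ N0, ∀ z ∈ P', c x ≤ c y → c y ≤ c z →
            y ∈ P') → Plc (TG G K P' c)
        refine ⟨fun x hx y hy e => hinj hA x y (hN0M x hx) (hN0M y hy) hx.2 hy.2 e,
          fun x hx y hy e => hchain hA x y (hN0M x hx) (hN0M y hy) hx.2 hy.2 e, ?_⟩
        intro P' hP' hne' hconv
        refine side_plc hUP hMU hΓ hh hRadj hA (C := {x | x ∈ B ∧ (h p < h x ∧ h x < h q)})
          hKU hKM hKc hKnb (fun b hb => (hP' hb).1) hne' (fun b hb => (hP' hb).2) hKA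
          (fun v hv h1 => hKB v hv h1.1) ?_ ?_ (Or.inr (hCC hB z hz hBi.1 hBi.2))
        · exact Set.disjoint_left.2 fun x h1 h2 => hdis x h1 h2.1 h2.2
        · intro b hb hbP'
          by_cases hbA : emb U P b ∈ A
          · exact Or.inl (hrest hP' hN0M hconv b ⟨hb, hbA⟩ hbP' hbA)
          · right
            have hbB := hN1B b ⟨hb, hbA⟩
            refine ⟨hbB, hB.bot_lt hbB ?_, hB.lt_top hbB ?_⟩
            · intro e
              exact hbA (e ▸ hA.bot)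
            · intro e
              exact hbA (e ▸ hA.top)
      · show Set.InjOn c N1 ∧ (∀ x ∈ N1, ∀ y ∈ N1, c x ≤ c y → ReflTransGen E x y) ∧
          ∀ P' ⊆ N1, P'.Nonempty → (∀ x ∈ P', ∀ y ∈ N1, ∀ z ∈ P', c x ≤ c y → c y ≤ c z →
            y ∈ P') → Plc (TG G K P' c)
        refine ⟨fun x hx y hy e => hinj hB x y (hN1M x hx) (hN1M y hy) (hN1B x hx) (hN1B y hy) e,
          fun x hx y hy e => hchain hB x y (hN1M x hx) (hN1M y hy) (hN1B x hx) (hN1B y hy) e, ?_⟩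
        intro P' hP' hne' hconv
        have hin : ∀ b ∈ N1, h p < h (emb U P b) ∧ h (emb U P b) < h q := by
          intro b hb
          have hbB := hN1B b hb
          refine ⟨hB.bot_lt hbB ?_, hB.lt_top hbB ?_⟩
          · intro e
            exact hb.2 (e ▸ hA.bot)
          · intro e
            exact hb.2 (e ▸ hA.top)
        refine side_plc hUP hMU hΓ hh hRadj hB (C := {x | x ∈ A ∧ (h p < h x ∧ h x < h q)})
          hKU hKM hKc hKnb (fun b hb => (hP' hb).1) hne' (fun b hb => hN1B b (hP' hb)) hKB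
          (fun v hv h1 => hKA v hv h1.1) ?_ ?_ (Or.inr (hCC hA y hy hAi.1 hAi.2))
        · exact Set.disjoint_left.2 fun x h1 h2 => hdis x h2.1 h1 h2.2
        · intro b hb hbP'
          by_cases hbA : emb U P b ∈ A
          · by_cases e1 : emb U P b = p
            · left
              refine ⟨e1 ▸ hB.bot, Or.inl fun c' hc' => ?_⟩
              rw [e1]
              exact (hin c' (hP' hc')).1
            · by_cases e2 : emb U P b = q
              · left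
                refine ⟨e2 ▸ hB.top, Or.inr fun c' hc' => ?_⟩
                rw [e2]
                exact (hin c' (hP' hc')).2
              · right
                exact ⟨hbA, hA.bot_lt hbA e1, hA.lt_top hbA e2⟩
          · exact Or.inl (hrest hP' hN1M hconv b ⟨hb, hbA⟩ hbP' (hN1B b ⟨hb, hbA⟩))
    · -- one arc and the edge `s t`
      have hN1e : N1 = ∅ := by
        ext b
        simp only [Set.mem_empty_iff_false, iff_false]
        intro hb
        exact hb.2 (hall _ (hnbX b hb.1).1 (hnbX b hb.1).2)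
      fin_cases i
      · show Set.InjOn c N0 ∧ (∀ x ∈ N0, ∀ y ∈ N0, c x ≤ c y → ReflTransGen E x y) ∧
          ∀ P' ⊆ N0, P'.Nonempty → (∀ x ∈ P', ∀ y ∈ N0, ∀ z ∈ P', c x ≤ c y → c y ≤ c z →
            y ∈ P') → Plc (TG G K P' c)
        refine ⟨fun x hx y hy e => hinj hA x y (hN0M x hx) (hN0M y hy) hx.2 hy.2 e,
          fun x hx y hy e => hchain hA x y (hN0M x hx) (hN0M y hy) hx.2 hy.2 e, ?_⟩
        intro P' hP' hne' hconv
        refine side_plc hUP hMU hΓ hh hRadj hA (C := ∅) hKU hKM hKc hKnb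
          (fun b hb => (hP' hb).1) hne' (fun b hb => (hP' hb).2) hKA
          (fun v hv h1 => h1) (Set.disjoint_empty _) ?_ (Or.inl ⟨rfl, hst, Or.inr ?_⟩)
        · intro b hb hbP'
          have hbA := hall _ (hnbX b hb).1 (hnbX b hb).2
          exact Or.inl (hrest hP' hN0M hconv b ⟨hb, hbA⟩ hbP' hbA)
        · intro b hb e
          rw [emb_eq (hMP b (hN0M b (hP' hb)))] at e
          exact Option.some_ne_none _ e
      · show Set.InjOn c N1 ∧ (∀ x ∈ N1, ∀ y ∈ N1, c x ≤ c y → ReflTransGen E x y) ∧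
          ∀ P' ⊆ N1, P'.Nonempty → (∀ x ∈ P', ∀ y ∈ N1, ∀ z ∈ P', c x ≤ c y → c y ≤ c z →
            y ∈ P') → Plc (TG G K P' c)
        rw [hN1e]
        refine ⟨Set.injOn_empty _, fun x hx => hx.elim, ?_⟩
        intro P' hP' hne'
        exact absurd (Set.subset_empty_iff.1 hP') hne'.ne_empty

end Vale.Agent.P235.LL.H834
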