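/-
P235-LL (helper834).  Contraction of a piece onto one of its vertices.
-/
import Vale.Agent.P235.LL.H834.TG

set_option linter.all false
set_option autoImplicit false

namespace Vale.Agent.P235.LL

open SimpleGraph H134

/-- `G` with the edges between `U` and `P` moved to `b0` -/
def GC {V : Type} (G : SimpleGraph V) (U P : Set V) (b0 : V) : SimpleGraph V where
  Adj x y := x ≠ y ∧ ((G.Adj x y ∧ ¬ (x ∈ U ∧ y ∈ P) ∧ ¬ (y ∈ U ∧ x ∈ P)) ∨
    (x = b0 ∧ y ∈ U ∧ ∃ b ∈ P, G.Adj y b) ∨ (y = b0 ∧ x ∈ U ∧ ∃ b ∈ P, G.Adj x b))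
  symm := ⟨by
    rintro x y ⟨h, h1 | h1 | h1⟩
    · exact ⟨h.symm, Or.inl ⟨h1.1.symm, h1.2.2, h1.2.1⟩⟩
    · exact ⟨h.symm, Or.inr (Or.inr h1)⟩
    · exact ⟨h.symm, Or.inr (Or.inl h1)⟩⟩
  loopless := ⟨fun _ h => h.1 rfl⟩

/-- the (M5) row: `T(U,P)` with `P` contracted is a minor of `T(U,P)` -/
def RowM5 : Prop := ∀ (V : Type) [Finite V] (G : SimpleGraph V) (U P : Set V) (w w' : V → ℝ) (b0 : V),
  Disjoint U P → b0 ∈ P → Set.InjOn w P → IsMinor (TG (GC G U P b0) U {b0} w') (TG G U P w)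

/-- `T(U',P')` does not see the contraction when `U'`, `P'` lie in `U` -/
theorem TG_GC {V : Type} {G : SimpleGraph V} {U P : Set V} {b0 : V} (hUP : Disjoint U P)
    (hb0 : b0 ∈ P) {U' P' : Set V} (hU' : U' ⊆ U) (hP' : P' ⊆ U) (w : V → ℝ) :
    TG (GC G U P b0) U' P' w = TG G U' P' w := by
  have hne : ∀ v ∈ U, v ∉ P := fun v h1 h2 => Set.disjoint_left.1 hUP h1 h2
  have hTZ : ∀ v, TZ (GC G U P b0) U' P' w v ↔ TZ G U' P' w v := by
    intro v
    refine or_congr Iff.rfl (or_congr Iff.rfl (and_congr_right fun hv => ?_))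
    constructor
    · rintro ⟨b, hb1, hb2, -, h | h | h⟩
      · exact ⟨b, hb1, hb2, h.1⟩
      · exact absurd hb0 (hne b0 (h.1 ▸ hU' hv))
      · obtain ⟨-, -, b', hb', hadj⟩ := h
        exact ⟨b', fun hh => hne _ (hU' hh) hb', fun hh => hne _ (hP' hh) hb', hadj⟩
    · rintro ⟨b, hb1, hb2, h⟩
      by_cases hbP : b ∈ P
      · exact ⟨b0, fun hh => hne _ (hU' hh) hb0, fun hh => hne _ (hP' hh) hb0,
          fun hh => hne v (hU' hv) (hh ▸ hb0), Or.inr (Or.inr ⟨rfl, hU' hv, b, hbP, h⟩)⟩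
      · exact ⟨b, hb1, hb2, h.ne, Or.inl ⟨h, fun hh => hbP hh.2, fun hh => hne v (hU' hv) hh.2⟩⟩
  have hin : ∀ v : {v : V // v ∈ U' ∨ v ∈ P'}, (v : V) ∈ U := fun v =>
    v.2.elim (fun h => hU' h) fun h => hP' h
  ext x y
  rcases x with _ | u <;> rcases y with _ | v
  · exact Iff.rfl
  · exact hTZ v
  · exact hTZ u
  · refine and_congr_right fun huv => or_congr (and_congr_left fun _ => ?_) Iff.rfl
    constructor
    · rintro ⟨-, h | h | h⟩
      · exact h.1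
      · exact absurd hb0 (hne b0 (h.1 ▸ hin u))
      · exact absurd hb0 (hne b0 (h.1 ▸ hin v))
    · intro h
      exact ⟨h.ne, Or.inl ⟨h, fun hh => hne _ (hin v) hh.2, fun hh => hne _ (hin u) hh.2⟩⟩

end Vale.Agent.P235.LL
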