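/-
P235-LL (helper834).  Section (3): the structure lemma.
-/
import Vale.Agent.P235.LL.H834.Core
import Vale.Agent.P235.LL.H834.GC
import Vale.Agent.P235.LL.H868.M5
import Vale.Agent.P235.H510.Coord
import Vale.Agent.P235.Bdl.B1

set_option linter.all false
set_option autoImplicit false

namespace Vale.Agent.P235.LL.H834

open SimpleGraph H134 Relation

/-- `T(U,P)` depends only on the order of the heights -/
theorem TG_congr {V : Type} {G : SimpleGraph V} {U P : Set V} {w w' : V → ℝ}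
    (h : ∀ a ∈ P, ∀ b ∈ P, (w a ≤ w b ↔ w' a ≤ w' b)) : TG G U P w = TG G U P w' := by
  have hlt : ∀ a ∈ P, ∀ b ∈ P, (w a < w b ↔ w' a < w' b) := fun a ha b hb => by
    rw [← not_le, ← not_le, h b hb a ha]
  have hC : ∀ a b, ConsIn P w a b ↔ ConsIn P w' a b := by
    intro a b
    constructor
    · rintro ⟨ha, hb, h1, h2⟩
      exact ⟨ha, hb, (hlt a ha b hb).1 h1, fun c hc => (h2 c hc).imp (h c hc a ha).1 (h b hb c hc).1⟩
    · rintro ⟨ha, hb, h1, h2⟩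
      exact ⟨ha, hb, (hlt a ha b hb).2 h1, fun c hc => (h2 c hc).imp (h c hc a ha).2 (h b hb c hc).2⟩
  have hT : ∀ v, TZ G U P w v ↔ TZ G U P w' v := by
    intro v
    refine or_congr (and_congr_right fun hv => ?_) (or_congr (and_congr_right fun hv => ?_) Iff.rfl)
    · exact forall₂_congr fun c hc => h v hv c hc
    · exact forall₂_congr fun c hc => h c hc v hv
  ext x y
  rcases x with _ | u <;> rcases y with _ | v
  · exact Iff.rfl
  · exact hT v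
  · exact hT u
  · exact and_congr_right fun _ => or_congr Iff.rfl (or_congr (hC _ _) (hC _ _))

theorem TG_scale {V : Type} {G : SimpleGraph V} {U P : Set V} {c : V → ℝ} {θ : ℝ} (hθ : 0 < θ) :
    TG G U P (fun v => c v / θ) = TG G U P c :=
  TG_congr fun a _ b _ => div_le_div_iff_of_pos_right hθ

theorem cons_next {V : Type} [Finite V] {P : Set V} {w : V → ℝ} {v : V} (hv : v ∈ P)
    (h : ¬ ∀ c ∈ P, w c ≤ w v) : ∃ y, ConsIn P w v y := by
  push Not at h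
  obtain ⟨c, hc, hvc⟩ := h
  obtain ⟨y, ⟨hy, hvy⟩, hmin⟩ := Set.exists_min_image {y | y ∈ P ∧ w v < w y} w
    (Set.toFinite _) ⟨c, hc, hvc⟩
  refine ⟨y, hv, hy, hvy, fun d hd => ?_⟩
  by_cases h1 : w d ≤ w v
  · exact Or.inl h1
  · exact Or.inr (hmin d ⟨hd, not_le.1 h1⟩)

theorem cons_prev {V : Type} [Finite V] {P : Set V} {w : V → ℝ} {v : V} (hv : v ∈ P)
    (h : ¬ ∀ c ∈ P, w v ≤ w c) : ∃ y, ConsIn P w y v := by
  push Not at h
  obtain ⟨c, hc, hvc⟩ := h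
  obtain ⟨y, ⟨hy, hvy⟩, hmax⟩ := Set.exists_max_image {y | y ∈ P ∧ w y < w v} w
    (Set.toFinite _) ⟨c, hc, hvc⟩
  refine ⟨y, hy, hv, hvy, fun d hd => ?_⟩
  by_cases h1 : w v ≤ w d
  · exact Or.inr h1
  · exact Or.inl (hmax d ⟨hd, not_le.1 h1⟩)

/-- the two parts of a chain -/
theorem split {V : Type} [Finite V] {N : Set V} {c : V → ℝ} (hinj : Set.InjOn c N)
    (h2 : 2 ≤ N.ncard) : ∃ A B : Set V, A.Nonempty ∧ B.Nonempty ∧ Disjoint A B ∧ A ⊆ N ∧ B ⊆ N ∧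
      (∀ b, b ∈ N ↔ b ∈ A ∨ b ∈ B) ∧
      (∀ x ∈ A, ∀ y ∈ N, ∀ z ∈ A, c x ≤ c y → c y ≤ c z → y ∈ A) ∧
      (∀ x ∈ B, ∀ y ∈ N, ∀ z ∈ B, c x ≤ c y → c y ≤ c z → y ∈ B) := by
  have hne : N.Nonempty := by
    rw [← Set.ncard_pos]
    omega
  obtain ⟨b1, hb1, hmin⟩ := Set.exists_min_image N c (Set.toFinite _) hne
  have hB : (N \ {b1}).Nonempty := by
    rw [← Set.ncard_pos]
    have := Set.ncard_diff_singleton_add_one hb1 (Set.toFinite _)
    omega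
  refine ⟨{b1}, N \ {b1}, ⟨b1, rfl⟩, hB, Set.disjoint_sdiff_right, ?_, Set.diff_subset, ?_, ?_, ?_⟩
  · rintro x rfl
    exact hb1
  · intro b
    constructor
    · intro hb
      by_cases e : b = b1
      · exact Or.inl e
      · exact Or.inr ⟨hb, e⟩
    · rintro (rfl | h)
      · exact hb1
      · exact h.1
  · rintro x rfl y hy z rfl h1 h3
    exact hinj hy hb1 (le_antisymm h3 h1)
  · rintro x ⟨hx, hxb⟩ y hy z ⟨hz, hzb⟩ h1 h3
    refine ⟨hy, ?_⟩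
    rintro rfl
    exact hxb (hinj hx hb1 (le_antisymm h1 (hmin x hx)))

section metric

variable {V : Type} [Finite V] {G : SimpleGraph V} {l : Sym2 V → ℝ}

theorem rtg_dist (hGc : G.Connected) (hl : ∀ e ∈ G.edgeSet, 0 < l e) {E : V → V → Prop}
    {c : V → ℝ} {θ : ℝ} {S : Set V} (hE : ∀ x y, E x y → x ∈ S → y ∈ S ∧
      pathDist G l x y ≤ (c y - c x) / θ) {x y : V} (hx : x ∈ S) (h : ReflTransGen E x y) :
    y ∈ S ∧ pathDist G l x y ≤ (c y - c x) / θ := by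
  induction h with
  | refl =>
    refine ⟨hx, ?_⟩
    rw [(pathDist_isMet hGc hl).self, sub_self, zero_div]
  | @tail y z _ h ih =>
    obtain ⟨h1, h2⟩ := hE y z h ih.1
    refine ⟨h1, ?_⟩
    have h3 := (pathDist_isMet hGc hl).tri x y z
    have h4 : (c z - c x) / θ = (c y - c x) / θ + (c z - c y) / θ := by ring
    rw [h4]
    linarith [ih.2]

theorem chain_b (hGc : G.Connected) (hl : ∀ e ∈ G.edgeSet, 0 < l e) {E : V → V → Prop}
    {c : V → ℝ} {θ : ℝ} (hθ : 0 < θ) {S N : Set V} (hE : ∀ x y, E x y → x ∈ S → y ∈ S ∧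
      pathDist G l x y ≤ (c y - c x) / θ) (hNS : N ⊆ S)
    (hN : ∀ x ∈ N, ∀ y ∈ N, c x ≤ c y → ReflTransGen E x y) :
    ∀ x ∈ N, ∀ y ∈ N, pathDist G l x y ≤ |c x - c y| / θ := by
  intro x hx y hy
  rcases le_total (c x) (c y) with h | h
  · have h1 := (rtg_dist hGc hl hE (hNS hx) (hN x hx y hy h)).2
    rwa [abs_sub_comm, abs_of_nonneg (sub_nonneg.2 h)]
  · have h1 := (rtg_dist hGc hl hE (hNS hy) (hN y hy x hx h)).2
    rw [abs_of_nonneg (sub_nonneg.2 h), (pathDist_isMet hGc hl).symm]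
    exact h1

end metric

theorem core_scale {V : Type} {G : SimpleGraph V} {K P : Set V} {c : V → ℝ} {θ : ℝ} (hθ : 0 < θ)
    (h : Plc (TG G K P c)) : Plc (TG G K P fun v => c v / θ) := by
  rw [TG_scale hθ]
  exact h

/-- **section (3), `τ = w`** -/
theorem struct_w {V : Type} [Finite V] {G : SimpleGraph V} {l : Sym2 V → ℝ} {U P : Set V}
    {w τ ct c s : V → ℝ} {θ : ℝ} (hGc : G.Connected) (hl : ∀ e ∈ G.edgeSet, 0 < l e)
    (hUP : Disjoint U P) (hPne : P.Nonempty) (hinj : Set.InjOn w P)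
    (hΓ : Plc (TG G U P w)) (hτ : ∀ b ∈ P, τ b = w b) (hc : H510.IsCoord G l U P τ ct c s)
    (hb : ∀ b ∈ P, ∀ b' ∈ P, pathDist G l b b' ≤ |w b - w b'|) (h0 : 0 < θ) (h1 : θ ≤ 1)
    {K : Set V} (hKU : K ⊆ U) (hKM : Disjoint K {v | v ∈ U ∧ θ ≤ s v})
    (hKc : (G.induce K).Connected)
    (hKnb : ∀ v ∈ K, ∀ y ∈ U, G.Adj v y → y ∈ K ∨ y ∈ {v | v ∈ U ∧ θ ≤ s v})
    (h2 : 2 ≤ (nb G K).ncard) :
    ∃ N : Fin 2 → Set V, (∀ i, (N i).Nonempty) ∧ Disjoint (N 0) (N 1) ∧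
      (∀ b, b ∈ nb G K ↔ ∃ i, b ∈ N i) ∧ (∀ i, ∀ b ∈ N i, (b ∈ U ∧ θ ≤ s b) ∨ b ∈ P) ∧
      ∀ i, Set.InjOn c (N i) ∧
        (∀ b ∈ N i, ∀ b' ∈ N i, pathDist G l b b' ≤ |c b - c b'| / θ) ∧
        Plc (TG G K (N i) fun v => c v / θ) := by
  classical
  have hneUP : ∀ v ∈ U, v ∉ P := fun v h1 h2 => Set.disjoint_left.1 hUP h1 h2
  let M : Set V := {v | v ∈ U ∧ θ ≤ s v}
  have hMU : M ⊆ U := fun v hv => hv.1
  have hcw : ∀ b ∈ P, c b = w b := fun b hb => by rw [hc.cP b hb, hτ b hb]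
  obtain ⟨b0, hb0, hmin⟩ := Set.exists_min_image P w (Set.toFinite _) hPne
  have hSP : ∀ v ∈ H510.SP G U P, v ∈ M := fun v hv => ⟨hv.1, by rw [hc.sS v hv]; exact h1⟩
  let E : V → V → Prop := fun x y => (x ∈ M ∨ x ∈ P) ∧ (y ∈ M ∨ y ∈ P) ∧ c x < c y ∧
    (((G.Adj x y ∧ (x ∈ U ∨ y ∈ U)) ∧ θ * l s(x, y) ≤ c y - c x) ∨ ConsIn P w x y)
  have hlpos : ∀ x y, G.Adj x y → 0 < l s(x, y) := fun x y h => hl _ (G.mem_edgeSet.2 h)
  have hupM : ∀ v, v ∈ M → v ∉ H510.SP G U P → ∃ y, E v y := by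
    intro v hv hvS
    obtain ⟨y, hy, hadj, hsy, hcy⟩ := hc.up v hv.1 hvS (lt_of_lt_of_le h0 hv.2)
    have hp := hlpos v y hadj
    have h3 : θ * l s(v, y) ≤ c y - c v := by
      rw [hcy]
      exact mul_le_mul_of_nonneg_right hv.2 hp.le
    have h4 : 0 < θ * l s(v, y) := mul_pos h0 hp
    refine ⟨y, Or.inl hv, hy.imp_left fun h => ⟨h, hv.2.trans hsy⟩, by linarith,
      Or.inl ⟨⟨hadj, Or.inl hv.1⟩, h3⟩⟩
  have hdnM : ∀ v, v ∈ M → ∃ y, E y v := by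
    intro v hv
    obtain ⟨y, hy, hadj, hsy, hcy⟩ := hc.dn v hv.1 (lt_of_lt_of_le h0 hv.2)
    have hp := hlpos v y hadj
    have h3 : θ * l s(y, v) ≤ c v - c y := by
      rw [hcy, Sym2.eq_swap]
      exact mul_le_mul_of_nonneg_right hv.2 hp.le
    have h4 : 0 < θ * l s(y, v) := by
      rw [Sym2.eq_swap]
      exact mul_pos h0 hp
    refine ⟨y, hy.imp_left fun h => ⟨h, hv.2.trans hsy⟩, Or.inl hv, by linarith,
      Or.inl ⟨⟨hadj.symm, Or.inr hv.1⟩, h3⟩⟩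
  have hcons : ∀ x y, ConsIn P w x y → E x y := by
    intro x y h
    refine ⟨Or.inr h.1, Or.inr h.2.1, ?_, Or.inr h⟩
    rw [hcw x h.1, hcw y h.2.1]
    exact h.2.2.1
  have hne : (nb G K).Nonempty := by
    rw [← Set.ncard_pos]
    omega
  have hKM' : Disjoint K M := hKM
  have hKnb' : ∀ v ∈ K, ∀ y, G.Adj v y → y ∈ K ∨ y ∈ M ∨ y ∈ P := by
    intro v hv y hadj
    by_cases hyU : y ∈ U
    · rcases hKnb v hv y hyU hadj with h | h
      · exact Or.inl h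
      · exact Or.inr (Or.inl h)
    · by_cases hyP : y ∈ P
      · exact Or.inr (Or.inr hyP)
      · exact absurd (hSP v ⟨hKU hv, y, hyU, hyP, hadj⟩) (Set.disjoint_left.1 hKM hv)
  obtain ⟨N, hN0, hdis, hcov, hcase, hN⟩ := core (E := E) (b0 := b0) (c := c) hUP hMU hb0 hΓ
    (fun u v h => ⟨h.1, h.2.1, h.2.2.1, h.2.2.2.imp_left fun h => h.1⟩)
    (by
      rintro v (hv | hv)
      · by_cases hvS : v ∈ H510.SP G U P
        · exact Or.inl (Or.inr (Or.inr hvS))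
        · exact Or.inr (hupM v hv hvS)
      · by_cases hm : ∀ c ∈ P, w c ≤ w v
        · exact Or.inl (Or.inr (Or.inl ⟨hv, hm⟩))
        · obtain ⟨y, hy⟩ := cons_next hv hm
          exact Or.inr ⟨y, hcons _ _ hy⟩)
    (by
      rintro v (hv | hv) hvb
      · exact hdnM v hv
      · have hm : ¬ ∀ c ∈ P, w v ≤ w c := fun hh =>
          hvb (hinj hv hb0 (le_antisymm (hh b0 hb0) (hmin v hv)))
        obtain ⟨y, hy⟩ := cons_prev hv hm
        exact ⟨y, hcons _ _ hy⟩)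
    (Or.inl ⟨hb0, hmin⟩) hKU hKM' hKc hKnb' hne
  have hnbM : ∀ b ∈ nb G K, b ∈ M ∨ b ∈ P := by
    rintro b ⟨hbK, v, hv, hadj⟩
    exact (hKnb' v hv b hadj).resolve_left hbK
  have hEd : ∀ x y, E x y → x ∈ M ∪ P → y ∈ M ∪ P ∧ pathDist G l x y ≤ (c y - c x) / θ := by
    rintro x y ⟨hx, hy, hlt, h⟩ -
    refine ⟨hy, ?_⟩
    rw [le_div_iff₀ h0]
    rcases h with ⟨⟨hadj, -⟩, h⟩ | h
    · have h3 := pathDist_adj hl hadj
      nlinarith
    · have h3 := hb x h.1 y h.2.1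
      rw [abs_sub_comm, abs_of_pos (sub_pos.2 h.2.2.1)] at h3
      rw [hcw x h.1, hcw y h.2.1]
      have h4 : 0 ≤ pathDist G l x y := pathDist_nonneg hl x y
      nlinarith
  have hNnb : ∀ i, N i ⊆ nb G K := by
    intro i b hb
    refine (hcov b).2 ?_
    fin_cases i
    · exact Or.inl hb
    · exact Or.inr hb
  have hchain : ∀ i, ∀ x ∈ N i, ∀ y ∈ N i, pathDist G l x y ≤ |c x - c y| / θ := fun i =>
    chain_b hGc hl h0 (S := M ∪ P) hEd (fun b hb => hnbM b (hNnb i hb)) (hN i).2.1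
  rcases hcase with hN1 | ⟨hN1, -, -⟩
  · -- one chain: split it
    have hN0nb : ∀ b, b ∈ nb G K ↔ b ∈ N 0 := by
      intro b
      rw [hcov b, hN1]
      simp
    have hcard : 2 ≤ (N 0).ncard := by
      have : nb G K = N 0 := Set.ext hN0nb
      rw [← this]
      exact h2
    obtain ⟨A, B, hA, hB, hAB, hAN, hBN, hABN, hcA, hcB⟩ := split (hN 0).1 hcard
    have hfin : ∀ D : Set V, D ⊆ N 0 → D.Nonempty →
        (∀ x ∈ D, ∀ y ∈ N 0, ∀ z ∈ D, c x ≤ c y → c y ≤ c z → y ∈ D) →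
        Set.InjOn c D ∧ (∀ b ∈ D, ∀ b' ∈ D, pathDist G l b b' ≤ |c b - c b'| / θ) ∧
        Plc (TG G K D fun v => c v / θ) := fun D hD hDne hDc =>
      ⟨(hN 0).1.mono hD, fun b hb b' hb' => hchain 0 b (hD hb) b' (hD hb'),
        core_scale h0 ((hN 0).2.2 D hD hDne hDc)⟩
    refine ⟨![A, B], ?_, hAB, ?_, ?_, ?_⟩
    · intro i
      fin_cases i
      · exact hA
      · exact hB
    · intro b
      rw [hN0nb b, hABN b, Fin.exists_fin_two]
      exact Iff.rfl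
    · intro i b hb
      fin_cases i
      · exact hnbM b ((hN0nb b).2 (hAN hb))
      · exact hnbM b ((hN0nb b).2 (hBN hb))
    · intro i
      fin_cases i
      · exact hfin A hAN hA hcA
      · exact hfin B hBN hB hcB
  · refine ⟨N, ?_, hdis, ?_, fun i b hb => hnbM b (hNnb i hb), fun i => ⟨(hN i).1, hchain i,
      core_scale h0 ((hN i).2.2 (N i) subset_rfl ?_ fun _ _ y hy _ _ _ _ => hy)⟩⟩
    · intro i
      fin_cases i
      · exact hN0
      · exact hN1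
    · intro b
      rw [hcov b, Fin.exists_fin_two]
    · fin_cases i
      · exact hN0
      · exact hN1

end Vale.Agent.P235.LL.H834
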