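/-
P235-LL (helper834).  Section (3): the structure lemma, `τ = 0`.
-/
import Vale.Agent.P235.LL.H834.Struct

set_option linter.all false
set_option autoImplicit false

namespace Vale.Agent.P235.LL.H834

open SimpleGraph H134 Relation

/-- the path through `P` as an arc of `T(U,P)` -/
theorem path_arc {V : Type} [Finite V] {G : SimpleGraph V} {U P : Set V} {w : V → ℝ}
    (hinj : Set.InjOn w P) {b0 b1 : V} (hb0 : b0 ∈ P) (hmin : ∀ b ∈ P, w b0 ≤ w b)
    (hb1 : b1 ∈ P) (hmax : ∀ b ∈ P, w b ≤ w b1) :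
    Arc (fun x y => ∃ a b, ConsIn P w a b ∧ x = emb U P a ∧ y = emb U P b)
      (fun x : Option {v : V // v ∈ U ∨ v ∈ P} => x.elim 0 fun v => w v)
      (emb U P b0) (emb U P b1) (emb U P '' P) where
  bot := ⟨b0, hb0, rfl⟩
  top := ⟨b1, hb1, rfl⟩
  ge := by
    rintro _ ⟨b, hb, rfl⟩
    rw [emb_eq (Or.inr hb0), emb_eq (Or.inr hb)]
    exact hmin b hb
  le := by
    rintro _ ⟨b, hb, rfl⟩
    rw [emb_eq (Or.inr hb1), emb_eq (Or.inr hb)]
    exact hmax b hb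
  inj := by
    rintro _ ⟨a, ha, rfl⟩ _ ⟨b, hb, rfl⟩ e
    rw [emb_eq (Or.inr ha), emb_eq (Or.inr hb)] at e
    rw [hinj ha hb e]
  next := by
    rintro _ ⟨b, hb, rfl⟩ hne
    have hm : ¬ ∀ c ∈ P, w c ≤ w b := fun hh =>
      hne (by rw [hinj hb hb1 (le_antisymm (hmax b hb) (hh b1 hb1))])
    obtain ⟨y, hy⟩ := cons_next hb hm
    refine ⟨emb U P y, ⟨y, hy.2.1, rfl⟩, ⟨b, y, hy, rfl, rfl⟩, ?_, ?_⟩
    · rw [emb_eq (Or.inr hb), emb_eq (Or.inr hy.2.1)]
      exact hy.2.2.1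
    · rintro _ ⟨c, hc, rfl⟩
      rw [emb_eq (Or.inr hb), emb_eq (Or.inr hy.2.1), emb_eq (Or.inr hc)]
      exact hy.2.2.2 c hc

/-- (M3): the pieces inside the old piece -/
theorem q_plc {V : Type} [Finite V] {G : SimpleGraph V} {U P M : Set V} {w c : V → ℝ}
    (hUP : Disjoint U P) (hinj : Set.InjOn w P) (hΓ : Plc (TG G U P w)) (hMU : M ⊆ U)
    (hM : ∀ v ∈ M, TZ G U P w v ∨ ∃ y ∈ M, G.Adj v y ∧ c v < c y)
    {K : Set V} (hKU : K ⊆ U) (hKM : Disjoint K M) (hKc : (G.induce K).Connected)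
    (hKnb : ∀ v ∈ K, ∀ y, G.Adj v y → y ∈ K ∨ y ∈ M ∨ y ∈ P)
    {P' : Set V} (hP' : P' ⊆ nb G K ∩ P) (hne : P'.Nonempty)
    (hconv : ∀ x ∈ P', ∀ y ∈ nb G K ∩ P, ∀ z ∈ P', w x ≤ w y → w y ≤ w z → y ∈ P') :
    Plc (TG G K P' w) := by
  classical
  have hneUP : ∀ v ∈ U, v ∉ P := fun v h1 h2 => Set.disjoint_left.1 hUP h1 h2
  have hPne : P.Nonempty := hne.mono fun b hb => (hP' hb).2
  obtain ⟨b0, hb0, hmin⟩ := Set.exists_min_image P w (Set.toFinite _) hPne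
  obtain ⟨b1, hb1, hmax⟩ := Set.exists_max_image P w (Set.toFinite _) hPne
  have hA := path_arc (G := G) (U := U) hinj hb0 hmin hb1 hmax
  have hKUP : ∀ v ∈ K, v ∈ U ∨ v ∈ P := fun v hv => Or.inl (hKU hv)
  refine tg_plc hΓ hKc hne (fun b hb => (hP' hb).1) ?_
  refine arc_minor (C := {none} ∪ emb U P '' M) ?_ hA ?_ (emb U P) ?_ ?_ ?_ hne ?_ ?_ ?_ ?_ ?_ ?_
    ?_ (Or.inr ⟨?_, ⟨none, Or.inl rfl, ?_⟩, none, Or.inl rfl, ?_⟩)
  · rintro _ _ ⟨a, b, hab, rfl, rfl⟩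
    rw [emb_eq (Or.inr hab.1), emb_eq (Or.inr hab.2.1)]
    refine ⟨fun e => ?_, Or.inr (Or.inl hab)⟩
    have h3 := hab.2.2.1
    have e' : a = b := e
    rw [e'] at h3
    exact lt_irrefl _ h3
  · exact Set.disjoint_left.2 fun v hv hv' => (hP' hv').1.1 hv
  · intro u hu v hv e
    exact emb_inj (hKUP u hu) (hKUP v hv) e
  · intro u hu v hv e
    exact emb_inj (Or.inr (hP' hu).2) (Or.inr (hP' hv).2) e
  · intro b hb
    exact ⟨b, (hP' hb).2, rfl⟩
  · intro b hb b' hb'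
    rw [emb_eq (Or.inr (hP' hb).2), emb_eq (Or.inr (hP' hb').2)]
    exact Iff.rfl
  · rintro v hv ⟨b, hb, e⟩
    have := emb_inj (Or.inr hb) (hKUP v hv) e
    exact hneUP v (hKU hv) (this ▸ hb)
  · rintro v hv (e | ⟨m, hm, e⟩)
    · rw [emb_eq (hKUP v hv)] at e
      exact Option.some_ne_none _ e
    · have := emb_inj (Or.inl (hMU hm)) (hKUP v hv) e
      exact Set.disjoint_left.1 hKM hv (this ▸ hm)
  · refine Set.disjoint_left.2 ?_
    rintro _ ⟨b, hb, rfl⟩ (e | ⟨m, hm, e⟩)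
    · rw [emb_eq (Or.inr hb)] at e
      exact Option.some_ne_none _ e
    · have := emb_inj (Or.inl (hMU hm)) (Or.inr hb) e
      exact hneUP m (hMU hm) (this ▸ hb)
  · intro u hu v hv huv
    rw [emb_eq (hKUP u hu), emb_eq (hKUP v hv)]
    exact ⟨huv.ne, Or.inl ⟨huv, Or.inl (hKU hu)⟩⟩
  · intro u hu b hb huv
    rw [emb_eq (hKUP u hu), emb_eq (Or.inr (hP' hb).2)]
    exact ⟨huv.ne, Or.inl ⟨huv, Or.inl (hKU hu)⟩⟩
  · rintro u hu ⟨b, hbK, hbP', hub⟩
    have hbUP : b ∈ U ∨ b ∈ P := by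
      rcases hKnb u hu b hub with h | h | h
      · exact Or.inl (hKU h)
      · exact Or.inl (hMU h)
      · exact Or.inr h
    have hadj : (TG G U P w).Adj (emb U P u) (emb U P b) := by
      rw [emb_eq (hKUP u hu), emb_eq hbUP]
      exact ⟨hub.ne, Or.inl ⟨hub, Or.inl (hKU hu)⟩⟩
    refine ⟨emb U P b, ?_, hadj⟩
    rcases hKnb u hu b hub with h | h | h
    · exact absurd h hbK
    · exact Or.inr (Or.inr ⟨b, h, rfl⟩)
    · left
      refine ⟨⟨b, h, rfl⟩, ?_⟩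
      by_contra hcon
      push Not at hcon
      obtain ⟨⟨x, hx, hxb⟩, z, hz, hzb⟩ := hcon
      refine hbP' (hconv x hx b ⟨⟨hbK, u, hu, hub⟩, h⟩ z hz ?_ ?_)
      · rw [emb_eq (Or.inr h), emb_eq (Or.inr (hP' hx).2)] at hxb
        exact hxb
      · rw [emb_eq (Or.inr h), emb_eq (Or.inr (hP' hz).2)] at hzb
        exact hzb
  · -- `{z} ∪ M` is connected
    obtain ⟨H, hH⟩ : ∃ H : ℝ, ∀ v, c v < H := by
      have := Fintype.ofFinite V
      refine ⟨(∑ v, |c v|) + 1, fun v => ?_⟩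
      have h1 : |c v| ≤ ∑ v, |c v| := Finset.single_le_sum (f := fun v => |c v|)
        (fun i _ => abs_nonneg _) (Finset.mem_univ v)
      have h2 := le_abs_self (c v)
      linarith
    refine Vale.Agent.P235.R2.H934.conn_asc (j := none)
      (h := fun x : Option {v : V // v ∈ U ∨ v ∈ P} => x.elim H fun v => c v) (Or.inl rfl) ?_
    rintro x (rfl | ⟨m, hm, rfl⟩) hx
    · exact absurd rfl hx
    · rcases hM m hm with h | ⟨y, hy, hadj, hlt⟩
      · refine ⟨none, Or.inl rfl, ?_, ?_⟩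
        · rw [emb_eq (Or.inl (hMU hm))]
          exact h
        · rw [emb_eq (Or.inl (hMU hm))]
          exact hH m
      · refine ⟨emb U P y, Or.inr ⟨y, hy, rfl⟩, ?_, ?_⟩
        · rw [emb_eq (Or.inl (hMU hm)), emb_eq (Or.inl (hMU hy))]
          exact ⟨hadj.ne, Or.inl ⟨hadj, Or.inl (hMU hm)⟩⟩
        · rw [emb_eq (Or.inl (hMU hm)), emb_eq (Or.inl (hMU hy))]
          exact hlt
  · rw [emb_eq (Or.inr hb0)]
    exact Or.inl ⟨hb0, hmin⟩
  · rw [emb_eq (Or.inr hb1)]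
    exact Or.inr (Or.inl ⟨hb1, hmax⟩)

/-- what is proved about one new piece -/
structure PieceOK {V : Type} (G : SimpleGraph V) (l : Sym2 V → ℝ) (U P : Set V)
    (w c s : V → ℝ) (θ : ℝ) (K : Set V) (N : Set V) (ty : Bool) : Prop where
  ne : N.Nonempty
  yes : ty = true → (∀ b ∈ N, b ∈ U ∧ θ ≤ s b) ∧ Set.InjOn c N ∧
    (∀ b ∈ N, ∀ b' ∈ N, pathDist G l b b' ≤ |c b - c b'| / θ) ∧
    Plc (TG G K N fun v => c v / θ)
  no : ty = false → N ⊆ P ∧ Plc (TG G K N w)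

/-- **section (3), `τ = 0`** -/
theorem struct_0 {V : Type} [Finite V] {G : SimpleGraph V} {l : Sym2 V → ℝ} {U P : Set V}
    {w τ ct c s : V → ℝ} {θ : ℝ} (hGc : G.Connected) (hl : ∀ e ∈ G.edgeSet, 0 < l e)
    (hUP : Disjoint U P) (hPne : P.Nonempty) (hinj : Set.InjOn w P)
    (hUc : (G.induce U).Connected) (hfoot : ∃ v ∈ U, ∃ b ∈ P, G.Adj v b)
    (hΓ : Plc (TG G U P w)) (hτ : ∀ b ∈ P, τ b = 0) (hc : H510.IsCoord G l U P τ ct c s)
    (h0 : 0 < θ) (h1 : θ ≤ 1)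
    {K : Set V} (hKU : K ⊆ U) (hKM : Disjoint K {v | v ∈ U ∧ θ ≤ s v})
    (hKc : (G.induce K).Connected)
    (hKnb : ∀ v ∈ K, ∀ y ∈ U, G.Adj v y → y ∈ K ∨ y ∈ {v | v ∈ U ∧ θ ≤ s v})
    (h2 : 2 ≤ (nb G K).ncard) :
    ∃ (N : Fin 3 → Set V) (ty : Fin 3 → Bool), (∀ i, (N i).Nonempty) ∧ Disjoint (N 0) (N 1) ∧
      ((N 2 = N 1 ∧ ty 2 = ty 1) ∨ (Disjoint (N 2) (N 0) ∧ Disjoint (N 2) (N 1))) ∧
      (∀ b, b ∈ nb G K ↔ ∃ i, b ∈ N i) ∧
      ∀ i, (ty i = true → (∀ b ∈ N i, b ∈ U ∧ θ ≤ s b) ∧ Set.InjOn c (N i) ∧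
          (∀ b ∈ N i, ∀ b' ∈ N i, pathDist G l b b' ≤ |c b - c b'| / θ) ∧
          Plc (TG G K (N i) fun v => c v / θ)) ∧
        (ty i = false → N i ⊆ P ∧ Plc (TG G K (N i) w)) := by
  classical
  have hneUP : ∀ v ∈ U, v ∉ P := fun v h1 h2 => Set.disjoint_left.1 hUP h1 h2
  let M : Set V := {v | v ∈ U ∧ θ ≤ s v}
  have hMU : M ⊆ U := fun v hv => hv.1
  have hc0 : ∀ b ∈ P, c b = 0 := fun b hb => by rw [hc.cP b hb, hτ b hb]
  obtain ⟨b0, hb0⟩ := hPne
  have hSP : ∀ v ∈ H510.SP G U P, v ∈ M := fun v hv => ⟨hv.1, by rw [hc.sS v hv]; exact h1⟩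
  have hge : ∀ v ∈ U, 0 ≤ c v := hc.ge 0 fun b hb => (hτ b hb).ge
  have hgt : ∀ v ∈ M, 0 < c v := fun v hv =>
    hc.gt 0 (fun b hb => (hτ b hb).ge) v hv.1 (lt_of_lt_of_le h0 hv.2)
  have hlpos : ∀ x y, G.Adj x y → 0 < l s(x, y) := fun x y h => hl _ (G.mem_edgeSet.2 h)
  have hMb : ∀ v ∈ M, v ≠ b0 := fun v hv e => hneUP v (hMU hv) (e ▸ hb0)
  -- the contracted graph
  let G' := GC G U P b0
  have hG'U : ∀ u v, u ∈ U → v ∈ U → (G'.Adj u v ↔ G.Adj u v) := by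
    intro u v hu hv
    constructor
    · rintro ⟨-, h | h | h⟩
      · exact h.1
      · exact absurd (h.1 ▸ hu) fun h3 => hneUP b0 h3 hb0
      · exact absurd (h.1 ▸ hv) fun h3 => hneUP b0 h3 hb0
    · intro h
      exact ⟨h.ne, Or.inl ⟨h, fun hh => hneUP v hv hh.2, fun hh => hneUP u hu hh.2⟩⟩
  have hG'b : ∀ v ∈ U, ∀ b ∈ P, G.Adj v b → G'.Adj v b0 := fun v hv b hb h =>
    ⟨fun e => hneUP v hv (e ▸ hb0), Or.inr (Or.inr ⟨rfl, hv, b, hb, h⟩)⟩
  have hind : ∀ S : Set V, S ⊆ U → (G.induce S).Connected → (G'.induce S).Connected := by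
    intro S hS hSc
    refine Connected.mono ?_ hSc
    intro a b hab
    exact (hG'U a b (hS a.2) (hS b.2)).2 hab
  have hUb0 : Disjoint U {b0} := by
    rw [Set.disjoint_singleton_right]
    exact fun h => hneUP b0 h hb0
  have hG'c : (TG G' U {b0} w).Connected := by
    refine tg_conn (hind U subset_rfl hUc) ⟨b0, rfl⟩ ?_
    rintro _ rfl
    obtain ⟨v, hv, b, hb, hadj⟩ := hfoot
    exact ⟨fun h => hneUP _ h hb0, v, hv, hG'b v hv b hb hadj⟩
  have hΓ' : Plc (TG G' U {b0} w) := by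
    refine ⟨hG'c, H555.planeMap_of_isMinor hΓ.1 hG'c ?_
      (H868.rowM5 V G U P w w b0 hUP hb0 hinj) hΓ.2⟩
    have : Nontrivial (Option {v : V // v ∈ U ∨ v ∈ ({b0} : Set V)}) :=
      ⟨none, some ⟨b0, Or.inr rfl⟩, by simp⟩
    exact Finite.one_lt_card
  -- steep edges
  let E : V → V → Prop := fun x y => (x ∈ M ∨ x ∈ ({b0} : Set V)) ∧ (y ∈ M ∨ y ∈ ({b0} : Set V)) ∧
    c x < c y ∧ (G'.Adj x y ∧ (x ∈ U ∨ y ∈ U)) ∧
    (x ∈ M → y ∈ M → G.Adj x y ∧ θ * l s(x, y) ≤ c y - c x)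
  have hupM : ∀ v, v ∈ M → v ∉ H510.SP G U P → ∃ y ∈ M, G.Adj v y ∧ c v < c y ∧
      θ * l s(v, y) ≤ c y - c v := by
    intro v hv hvS
    obtain ⟨y, hy, hadj, hsy, hcy⟩ := hc.up v hv.1 hvS (lt_of_lt_of_le h0 hv.2)
    have hp := hlpos v y hadj
    have h3 : θ * l s(v, y) ≤ c y - c v := by
      rw [hcy]
      exact mul_le_mul_of_nonneg_right hv.2 hp.le
    have h4 : 0 < θ * l s(v, y) := mul_pos h0 hp
    rcases hy with hy | hy
    · exact ⟨y, ⟨hy, hv.2.trans hsy⟩, hadj, by linarith, h3⟩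
    · have := hc0 y hy
      have := hgt v hv
      linarith
  have hdnM : ∀ v, v ∈ M → ∃ y, E y v := by
    intro v hv
    obtain ⟨y, hy, hadj, hsy, hcy⟩ := hc.dn v hv.1 (lt_of_lt_of_le h0 hv.2)
    have hp := hlpos v y hadj
    have h3 : θ * l s(y, v) ≤ c v - c y := by
      rw [hcy, Sym2.eq_swap]
      exact mul_le_mul_of_nonneg_right hv.2 hp.le
    have h4 : 0 < θ * l s(y, v) := by
      rw [Sym2.eq_swap]
      exact mul_pos h0 hp
    rcases hy with hy | hy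
    · exact ⟨y, Or.inl ⟨hy, hv.2.trans hsy⟩, Or.inl hv, by linarith,
        ⟨(hG'U y v hy hv.1).2 hadj.symm, Or.inr hv.1⟩, fun _ _ => ⟨hadj.symm, h3⟩⟩
    · refine ⟨b0, Or.inr rfl, Or.inl hv, ?_, ⟨(hG'b v hv.1 y hy hadj).symm, Or.inr hv.1⟩,
        fun h => absurd rfl (hMb b0 h)⟩
      rw [hc0 b0 hb0]
      exact hgt v hv
  have hKM' : Disjoint K M := hKM
  have hKnb' : ∀ v ∈ K, ∀ y, G.Adj v y → y ∈ K ∨ y ∈ M ∨ y ∈ P := by
    intro v hv y hadj
    by_cases hyU : y ∈ U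
    · rcases hKnb v hv y hyU hadj with h | h
      · exact Or.inl h
      · exact Or.inr (Or.inl h)
    · by_cases hyP : y ∈ P
      · exact Or.inr (Or.inr hyP)
      · exact absurd (hSP v ⟨hKU hv, y, hyU, hyP, hadj⟩) (Set.disjoint_left.1 hKM hv)
  have hKnb'' : ∀ v ∈ K, ∀ y, G'.Adj v y → y ∈ K ∨ y ∈ M ∨ y ∈ ({b0} : Set V) := by
    rintro v hv y ⟨-, h | h | h⟩
    · rcases hKnb' v hv y h.1 with h3 | h3 | h3
      · exact Or.inl h3
      · exact Or.inr (Or.inl h3)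
      · exact absurd ⟨hKU hv, h3⟩ h.2.1
    · exact absurd (h.1 ▸ hKU hv) fun h3 => hneUP b0 h3 hb0
    · exact Or.inr (Or.inr h.1)
  -- neighbours in the contracted graph
  have hnb1 : ∀ b, b ∈ nb G' K → (b ∈ nb G K ∧ b ∉ P) ∨ (b = b0 ∧ ∃ q, q ∈ nb G K ∩ P) := by
    rintro b ⟨hbK, v, hv, -, h | h | h⟩
    · exact Or.inl ⟨⟨hbK, v, hv, h.1⟩, fun hb => h.2.1 ⟨hKU hv, hb⟩⟩
    · exact absurd (h.1 ▸ hKU hv) fun h3 => hneUP b0 h3 hb0
    · obtain ⟨h3, -, q, hq, hadj⟩ := h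
      exact Or.inr ⟨h3, q, ⟨fun hh => hneUP q (hKU hh) hq, v, hv, hadj⟩, hq⟩
  have hnb2 : ∀ b, b ∈ nb G K → b ∉ P → b ∈ nb G' K := by
    rintro b ⟨hbK, v, hv, hadj⟩ hbP
    exact ⟨hbK, v, hv, hadj.ne, Or.inl ⟨hadj, fun hh => hbP hh.2,
      fun hh => hneUP v (hKU hv) hh.2⟩⟩
  have hnb3 : ∀ b, b ∈ nb G K → b ∈ P → b0 ∈ nb G' K := by
    rintro b ⟨hbK, v, hv, hadj⟩ hbP
    exact ⟨fun hh => hneUP b0 (hKU hh) hb0, v, hv, hG'b v (hKU hv) b hbP hadj⟩
  have hne : (nb G K).Nonempty := by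
    rw [← Set.ncard_pos]
    omega
  have hne' : (nb G' K).Nonempty := by
    obtain ⟨b, hb⟩ := hne
    by_cases hbP : b ∈ P
    · exact ⟨b0, hnb3 b hb hbP⟩
    · exact ⟨b, hnb2 b hb hbP⟩
  obtain ⟨N, hN0, hdis, hcov, hcase, hN⟩ := core (G := G') (E := E) (b0 := b0) (c := c) (w := w)
    hUb0 hMU (Set.mem_singleton b0) hΓ'
    (fun u v h => ⟨h.1, h.2.1, h.2.2.1, Or.inl h.2.2.2.1⟩)
    (by
      rintro v (hv | hv)
      · by_cases hvS : v ∈ H510.SP G U P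
        · obtain ⟨hvU, b, hbU, hbP, hadj⟩ := hvS
          refine Or.inl (Or.inr (Or.inr ⟨hvU, b, hbU, ?_, hadj.ne, Or.inl ⟨hadj,
            fun hh => hbP hh.2, fun hh => hneUP v hvU hh.2⟩⟩))
          rintro rfl
          exact hbP hb0
        · obtain ⟨y, hy, hadj, hlt, h3⟩ := hupM v hv hvS
          exact Or.inr ⟨y, Or.inl hv, Or.inl hy, hlt,
            ⟨(hG'U v y hv.1 hy.1).2 hadj, Or.inl hv.1⟩, fun _ _ => ⟨hadj, h3⟩⟩
      · left
        left
        refine ⟨hv, ?_⟩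
        rintro _ rfl
        rw [Set.mem_singleton_iff.1 hv])
    (by
      rintro v (hv | hv) hvb
      · exact hdnM v hv
      · exact absurd hv hvb)
    (Or.inl ⟨rfl, by rintro _ rfl; exact le_rfl⟩) hKU hKM' (hind K hKU hKc) hKnb'' hne'
  have hNnb : ∀ i, N i ⊆ nb G' K := by
    intro i b hb
    refine (hcov b).2 ?_
    fin_cases i
    · exact Or.inl hb
    · exact Or.inr hb
  have hnbM : ∀ b ∈ nb G K, b ∈ M ∨ b ∈ P := by
    rintro b ⟨hbK, v, hv, hadj⟩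
    exact (hKnb' v hv b hadj).resolve_left hbK
  have hNM : ∀ i, ∀ b ∈ N i, b ≠ b0 → b ∈ M ∧ b ∈ nb G K := by
    intro i b hb hbb
    rcases hnb1 b (hNnb i hb) with h | h
    · exact ⟨(hnbM b h.1).resolve_right h.2, h.1⟩
    · exact absurd h.1 hbb
  have hEd : ∀ x y, E x y → x ∈ M → y ∈ M ∧ pathDist G l x y ≤ (c y - c x) / θ := by
    rintro x y ⟨-, hy, hlt, -, h⟩ hx
    have hyM : y ∈ M := by
      rcases hy with hy | hy
      · exact hy
      · have h3 := hgt x hx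
        rw [Set.mem_singleton_iff.1 hy, hc0 b0 hb0] at hlt
        linarith
    refine ⟨hyM, ?_⟩
    obtain ⟨hadj, h⟩ := h hx hyM
    rw [le_div_iff₀ h0]
    have h3 := pathDist_adj hl hadj
    nlinarith
  -- pieces of the first type
  have hyes : ∀ i, ∀ D ⊆ N i \ {b0}, D.Nonempty →
      (∀ x ∈ D, ∀ y ∈ N i \ {b0}, ∀ z ∈ D, c x ≤ c y → c y ≤ c z → y ∈ D) →
      PieceOK G l U P w c s θ K D true := by
    intro i D hD hDne hDc
    have hDM : D ⊆ M := fun b hb => (hNM i b (hD hb).1 (hD hb).2).1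
    refine ⟨hDne, fun _ => ⟨fun b hb => hDM hb, (hN i).1.mono fun b hb => (hD hb).1, ?_, ?_⟩,
      fun h => absurd h (by decide)⟩
    · exact chain_b hGc hl h0 (S := M) hEd hDM
        fun x hx y hy hxy => (hN i).2.1 x (hD hx).1 y (hD hy).1 hxy
    · refine core_scale h0 ?_
      have h3 := (hN i).2.2 D (fun b hb => (hD hb).1) hDne (by
        intro x hx y hy z hz hxy hyz
        refine hDc x hx y ⟨hy, ?_⟩ z hz hxy hyz
        rintro rfl
        have h4 := hgt x (hDM hx)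
        rw [hc0 _ hb0] at hxy
        linarith)
      have h4 : TG G' K D c = TG G K D c := TG_GC hUP hb0 hKU (fun b hb => hMU (hDM hb)) c
      rw [← h4]
      exact h3
  -- pieces of the second type
  have hno : ∀ D ⊆ nb G K ∩ P, D.Nonempty →
      (∀ x ∈ D, ∀ y ∈ nb G K ∩ P, ∀ z ∈ D, w x ≤ w y → w y ≤ w z → y ∈ D) →
      PieceOK G l U P w c s θ K D false := by
    intro D hD hDne hDc
    refine ⟨hDne, fun h => absurd h (by decide), fun _ => ⟨fun b hb => (hD hb).2, ?_⟩⟩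
    refine q_plc (c := c) hUP hinj hΓ hMU ?_ hKU hKM' hKc hKnb' hD hDne hDc
    intro v hv
    by_cases hvS : v ∈ H510.SP G U P
    · exact Or.inl (Or.inr (Or.inr hvS))
    · obtain ⟨y, hy, hadj, hlt, -⟩ := hupM v hv hvS
      exact Or.inr ⟨y, hy, hadj, hlt⟩
  -- final forms
  have two : ∀ (A B : Set V) (a b : Bool), PieceOK G l U P w c s θ K A a →
      PieceOK G l U P w c s θ K B b → Disjoint A B → (∀ x, x ∈ nb G K ↔ x ∈ A ∨ x ∈ B) →
      ∃ (N : Fin 3 → Set V) (ty : Fin 3 → Bool), (∀ i, (N i).Nonempty) ∧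
        Disjoint (N 0) (N 1) ∧
        ((N 2 = N 1 ∧ ty 2 = ty 1) ∨ (Disjoint (N 2) (N 0) ∧ Disjoint (N 2) (N 1))) ∧
        (∀ b, b ∈ nb G K ↔ ∃ i, b ∈ N i) ∧
        ∀ i, (ty i = true → (∀ b ∈ N i, b ∈ U ∧ θ ≤ s b) ∧ Set.InjOn c (N i) ∧
            (∀ b ∈ N i, ∀ b' ∈ N i, pathDist G l b b' ≤ |c b - c b'| / θ) ∧
            Plc (TG G K (N i) fun v => c v / θ)) ∧
          (ty i = false → N i ⊆ P ∧ Plc (TG G K (N i) w)) := by
    intro A B a b hA hB hAB hAB'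
    refine ⟨![A, B, B], ![a, b, b], ?_, hAB, Or.inl ⟨rfl, rfl⟩, ?_, ?_⟩
    · intro i
      fin_cases i
      · exact hA.ne
      · exact hB.ne
      · exact hB.ne
    · intro x
      rw [hAB' x]
      constructor
      · rintro (h | h)
        · exact ⟨0, h⟩
        · exact ⟨1, h⟩
      · rintro ⟨i, hi⟩
        fin_cases i
        · exact Or.inl hi
        · exact Or.inr hi
        · exact Or.inr hi
    · intro i
      fin_cases i
      · exact ⟨hA.yes, hA.no⟩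
      · exact ⟨hB.yes, hB.no⟩
      · exact ⟨hB.yes, hB.no⟩
  by_cases hQ : (nb G K ∩ P).Nonempty
  · -- the old piece is touched
    have hb0nb : b0 ∈ nb G' K := by
      obtain ⟨q, hq, hqP⟩ := hQ
      exact hnb3 q hq hqP
    have hb0N1 : b0 ∉ N 1 := by
      rcases hcase with h | h
      · rw [h]
        exact fun hh => hh
      · exact h.2.1
    have hQ' := hno (nb G K ∩ P) subset_rfl hQ fun _ _ y hy _ _ _ _ => hy
    have hD0 : Disjoint (N 0 \ {b0}) (nb G K ∩ P) := Set.disjoint_left.2 fun b hb hb' =>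
      hneUP b (hMU (hNM 0 b hb.1 hb.2).1) hb'.2
    rcases hcase with h | ⟨hN1, -, y, hy, hyb⟩
    · -- one chain
      have hcov0 : ∀ b, b ∈ nb G K → b ∉ P → b ∈ N 0 \ {b0} := by
        intro b hb hbP
        refine ⟨?_, fun e => hbP (Set.mem_singleton_iff.1 e ▸ hb0)⟩
        rcases (hcov b).1 (hnb2 b hb hbP) with h3 | h3
        · exact h3
        · rw [h] at h3
          exact h3.elim
      by_cases hN0' : (N 0 \ {b0}).Nonempty
      · refine two (N 0 \ {b0}) (nb G K ∩ P) true false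
          (hyes 0 _ subset_rfl hN0' fun _ _ y hy _ _ _ _ => hy) hQ' hD0 fun x => ?_
        constructor
        · intro hx
          by_cases hxP : x ∈ P
          · exact Or.inr ⟨hx, hxP⟩
          · exact Or.inl (hcov0 x hx hxP)
        · rintro (hx | hx)
          · exact (hNM 0 x hx.1 hx.2).2
          · exact hx.1
      · -- everything is in `P`: split
        have hall : ∀ b, b ∈ nb G K ↔ b ∈ nb G K ∩ P := by
          intro b
          refine ⟨fun hb => ⟨hb, ?_⟩, fun hb => hb.1⟩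
          by_contra hbP
          exact hN0' ⟨b, hcov0 b hb hbP⟩
        have hcard : 2 ≤ (nb G K ∩ P).ncard := by
          have e : nb G K = nb G K ∩ P := Set.ext hall
          rw [← e]
          exact h2
        obtain ⟨A, B, hA, hB, hAB, hAN, hBN, hABN, hcA, hcB⟩ :=
          split (hinj.mono (Set.inter_subset_right (s := nb G K))) hcard
        exact two A B false false (hno A hAN hA hcA) (hno B hBN hB hcB) hAB fun x => by
          rw [hall x, hABN x]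
    · -- three pieces
      have hb01 : N 1 \ {b0} = N 1 := Set.diff_singleton_eq_self hb0N1
      have hP0 := hyes 0 (N 0 \ {b0}) subset_rfl ⟨y, hy, hyb⟩ fun _ _ y hy _ _ _ _ => hy
      have hP1 := hyes 1 (N 1) (by rw [hb01]) hN1 (by
        rw [hb01]
        exact fun _ _ y hy _ _ _ _ => hy)
      have hN1M : ∀ b ∈ N 1, b ∈ M ∧ b ∈ nb G K := fun b hb =>
        hNM 1 b hb fun e => hb0N1 (e ▸ hb)
      refine ⟨![N 0 \ {b0}, N 1, nb G K ∩ P], ![true, true, false], ?_,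
        hdis.mono_left Set.diff_subset, Or.inr ⟨hD0.symm, ?_⟩, ?_, ?_⟩
      · intro i
        fin_cases i
        · exact hP0.ne
        · exact hP1.ne
        · exact hQ'.ne
      · exact Set.disjoint_left.2 fun b hb hb' => hneUP b (hMU (hN1M b hb').1) hb.2
      · intro x
        constructor
        · intro hx
          by_cases hxP : x ∈ P
          · exact ⟨2, hx, hxP⟩
          · rcases (hcov x).1 (hnb2 x hx hxP) with h3 | h3
            · exact ⟨0, h3, fun e => hxP (Set.mem_singleton_iff.1 e ▸ hb0)⟩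
            · exact ⟨1, h3⟩
        · rintro ⟨i, hi⟩
          fin_cases i
          · exact (hNM 0 x hi.1 hi.2).2
          · exact (hN1M x hi).2
          · exact hi.1
      · intro i
        fin_cases i
        · exact ⟨hP0.yes, hP0.no⟩
        · exact ⟨hP1.yes, hP1.no⟩
        · exact ⟨hQ'.yes, hQ'.no⟩
  · -- the old piece is not touched
    have hnP : ∀ b ∈ nb G K, b ∉ P := fun b hb hbP => hQ ⟨b, hb, hbP⟩
    have hb0n : b0 ∉ nb G' K := by
      intro hb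
      rcases hnb1 b0 hb with h | ⟨-, q, hq⟩
      · exact h.2 hb0
      · exact hQ ⟨q, hq⟩
    have hiff : ∀ b, b ∈ nb G K ↔ b ∈ nb G' K := by
      intro b
      constructor
      · intro hb
        exact hnb2 b hb (hnP b hb)
      · intro hb
        rcases hnb1 b hb with h | ⟨-, q, hq⟩
        · exact h.1
        · exact absurd ⟨q, hq⟩ hQ
    have hdiff : ∀ i, N i \ {b0} = N i := fun i =>
      Set.diff_singleton_eq_self fun h => hb0n (hNnb i h)
    rcases hcase with h | ⟨hN1, -, -⟩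
    · have hN0nb : ∀ b, b ∈ nb G K ↔ b ∈ N 0 := by
        intro b
        rw [hiff b, hcov b, h]
        simp
      have hcard : 2 ≤ (N 0).ncard := by
        have e : nb G K = N 0 := Set.ext hN0nb
        rw [← e]
        exact h2
      obtain ⟨A, B, hA, hB, hAB, hAN, hBN, hABN, hcA, hcB⟩ := split (hN 0).1 hcard
      exact two A B true true (hyes 0 A (by rw [hdiff]; exact hAN) hA (by rw [hdiff]; exact hcA))
        (hyes 0 B (by rw [hdiff]; exact hBN) hB (by rw [hdiff]; exact hcB)) hAB fun x => by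
          rw [hN0nb x, hABN x]
    · exact two (N 0) (N 1) true true
        (hyes 0 (N 0) (by rw [hdiff]) hN0 (by rw [hdiff]; exact fun _ _ y hy _ _ _ _ => hy))
        (hyes 1 (N 1) (by rw [hdiff]) hN1 (by rw [hdiff]; exact fun _ _ y hy _ _ _ _ => hy))
        hdis fun x => by rw [hiff x, hcov x]

end Vale.Agent.P235.LL.H834
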