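/-
P235-LL (helper834).  Closure of the good domains under one move.
-/
import Vale.Agent.P235.LL.H834.Struct0
import Vale.Agent.P235.LL.H611.GRows
import Vale.Agent.P235.LL.Basic

set_option linter.all false
set_option autoImplicit false

namespace Vale.Agent.P235.LL.H834

open SimpleGraph Relation

/-- walk-connected sets induce connected graphs -/
theorem conn_of_wconn {V : Type} {G : SimpleGraph V} {U : Set V} (hne : U.Nonempty)
    (h : WConn G U) : (G.induce U).Connected := by
  have key : ∀ (x y : V) (p : G.Walk x y) (hp : ∀ z ∈ p.support, z ∈ U),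
      (G.induce U).Reachable ⟨x, hp x p.start_mem_support⟩ ⟨y, hp y p.end_mem_support⟩ := by
    intro x y p
    induction p with
    | nil => intro hp; exact Reachable.refl _
    | @cons x z y ha p ih =>
      intro hp
      have h1 := ih fun a ha' => hp a (by simp [ha'])
      refine (Adj.reachable ?_).trans h1
      exact ha
  obtain ⟨u0, hu0⟩ := hne
  have : Nonempty U := ⟨⟨u0, hu0⟩⟩
  refine ⟨fun a b => ?_⟩
  obtain ⟨p, hp⟩ := h a.1 a.2 b.1 b.2
  exact key _ _ p hp

theorem wconn_comp {V : Type} {G : SimpleGraph V} {X : Set V} {x : V} :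
    WConn G (compSet G X x) := by
  intro u hu v hv
  obtain ⟨p, hp⟩ := ReachOff.trans (ReachOff.symm hu) hv
  refine ⟨p, fun z hz => ?_⟩
  classical
  refine ReachOff.trans hu ⟨p.takeUntil z hz, fun a ha => hp a ?_⟩
  exact p.support_takeUntil_subset hz ha

/-- no cut vertex: a proper connected set has at least two neighbours -/
theorem two_nb {V : Type} [Finite V] {G : SimpleGraph V} (hc : G.Connected)
    (hcut : ∀ v, (G.induce {x | x ≠ v}).Connected) {K : Set V} (hK : K.Nonempty)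
    {a b : V} (ha : a ∉ K) (hb : b ∉ K) (hab : a ≠ b) : 2 ≤ (nb G K).ncard := by
  by_contra hcon
  have h1 : (nb G K).ncard ≤ 1 := by omega
  -- a vertex off K, different from the only neighbour
  have hex : ∃ v y, y ∉ K ∧ y ≠ v ∧ (∀ z ∈ nb G K, z = v) := by
    rcases Set.eq_empty_or_nonempty (nb G K) with h | ⟨v, hv⟩
    · exact ⟨a, b, hb, hab.symm, fun z hz => by rw [h] at hz; exact hz.elim⟩
    · have h3 : ∀ z ∈ nb G K, z = v := fun z hz =>
        (Set.ncard_le_one (Set.toFinite _)).1 h1 z hz v hv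
      by_cases h4 : a = v
      · exact ⟨v, b, hb, fun e => hab (h4.trans e.symm), h3⟩
      · exact ⟨v, a, ha, h4, h3⟩
  obtain ⟨v, y, hyK, hyv, hall⟩ := hex
  obtain ⟨x, hx⟩ := hK
  by_cases hxv : x = v
  · -- then `v ∈ K` and there is no neighbour at all
    have h3 : ∀ z, z ∉ nb G K := fun z hz => hz.1 (hall z hz ▸ hxv ▸ hx)
    obtain ⟨p⟩ := hc x y
    have : ∀ (u y : V) (p : G.Walk u y), u ∈ K → y ∈ K := by
      intro u y p
      induction p with
      | nil => exact fun h => h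
      | @cons u z y ha p ih =>
        intro hu
        refine ih ?_
        by_contra hz
        exact h3 z ⟨hz, u, hu, ha⟩
    exact hyK (this x y p hx)
  · obtain ⟨p⟩ := (hcut v) ⟨x, hxv⟩ ⟨y, hyv⟩
    have : ∀ (u y : {x | x ≠ v}) (p : (G.induce {x | x ≠ v}).Walk u y), u.1 ∈ K → y.1 ∈ K := by
      intro u y p
      induction p with
      | nil => exact fun h => h
      | @cons u z y ha p ih =>
        intro hu
        refine ih ?_
        by_contra hz
        exact z.2 (hall z.1 ⟨hz, u.1, hu, ha⟩)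
    exact hyK (this _ _ p hx)

theorem rowChild : RowChild := by
  classical
  intro V _ G ℓ hs D hD k j x hx
  obtain ⟨hg, hco⟩ := hD
  obtain ⟨ct, hc⟩ := hco k
  set θ : ℝ := 1 / 2 ^ (j + 1) with hθ
  have h2p : (0 : ℝ) < 2 ^ (j + 1) := by positivity
  have h0 : 0 < θ := by positivity
  have h1 : θ ≤ 1 := by
    rw [hθ, div_le_one h2p]
    exact one_le_pow₀ (by norm_num)
  have hvis : ∀ v, v ∉ D.vis k (j + 1) ↔ v ∈ D.U ∧ D.s k v < θ := by
    intro v
    show ¬ (v ∈ D.U → 1 ≤ j + 1 ∧ 1 ≤ 2 ^ (j + 1) * D.s k v) ↔ _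
    have e : D.s k v < θ ↔ ¬ 1 ≤ 2 ^ (j + 1) * D.s k v := by
      rw [hθ, lt_div_iff₀ h2p, mul_comm, not_le]
    rw [e]
    constructor
    · intro h
      push Not at h
      exact ⟨h.1, not_le.2 (h.2 (by omega))⟩
    · rintro ⟨h3, h4⟩ h5
      exact h4 (h5 h3).2
  set K : Set V := compSet G (D.vis k (j + 1)) x with hK
  have hKx : x ∈ K := compSet_self hx
  have hKne : K.Nonempty := ⟨x, hKx⟩
  have hKU' : ∀ v ∈ K, v ∈ D.U ∧ D.s k v < θ := fun v hv => (hvis v).1 (compSet_sub hv)
  have hKU : K ⊆ D.U := fun v hv => (hKU' v hv).1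
  have hKM : Disjoint K {v | v ∈ D.U ∧ θ ≤ D.s k v} :=
    Set.disjoint_left.2 fun v hv hv' => absurd (hKU' v hv).2 (not_lt.2 hv'.2)
  have hKw : WConn G K := wconn_comp
  have hKc : (G.induce K).Connected := conn_of_wconn hKne hKw
  have hKnb : ∀ v ∈ K, ∀ y ∈ D.U, G.Adj v y → y ∈ K ∨ y ∈ {v | v ∈ D.U ∧ θ ≤ D.s k v} := by
    intro v hv y hy hadj
    by_cases h : θ ≤ D.s k y
    · exact Or.inr ⟨hy, h⟩
    · exact Or.inl (compSet_adj hv hadj ((hvis y).2 ⟨hy, not_le.1 h⟩))
  have hUc : (G.induce D.U).Connected := conn_of_wconn hg.ne hg.conn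
  have hfoot : ∃ v ∈ D.U, ∃ b ∈ D.P k.1, G.Adj v b := by
    obtain ⟨b, hb⟩ := hg.pne k.1
    obtain ⟨v, hv, h⟩ := hg.foot k.1 b hb
    exact ⟨v, hv, b, hb, h⟩
  have hPnb : D.P k.1 ⊆ nb G D.U := fun b hb =>
    ⟨fun h => Set.disjoint_left.1 (hg.out k.1) h hb, hg.foot k.1 b hb⟩
  have hΓ : Plc (TG G D.U (D.P k.1) (D.w k.1)) := ⟨tg_conn hUc (hg.pne k.1) hPnb, hg.c k.1⟩
  have hout : ∀ i, ∀ b ∈ D.P i, b ∉ D.U := fun i b hb h =>
    Set.disjoint_left.1 (hg.out i) h hb
  have h2 : 2 ≤ (nb G K).ncard := by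
    obtain ⟨i1, i2, h12⟩ := hg.two
    obtain ⟨b1, hb1⟩ := hg.pne i1
    obtain ⟨b2, hb2⟩ := hg.pne i2
    exact two_nb hs.conn hs.cut hKne (fun h => hout i1 b1 hb1 (hKU h))
      (fun h => hout i2 b2 hb2 (hKU h)) fun e => Set.disjoint_left.1 h12 hb1 (e ▸ hb2)
  have hsl : Slopes G ℓ D.U (D.P k.1) (D.c k) (D.s k) :=
    ⟨hc.edge, fun u b hu hb hadj => by rw [hc.cP b hb]; exact hc.dart u b hu hb hadj⟩
  have hcv : ∀ b, (b ∈ D.U ∨ b ∈ D.P k.1) → D.c k b / θ = 2 ^ (j + 1) * D.cv k b := by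
    intro b hb
    have e1 : D.c k b / θ = 2 ^ (j + 1) * D.c k b := by
      rw [hθ]
      field_simp
    rw [e1]
    unfold Dom.cv
    by_cases hbU : b ∈ D.U
    · rw [if_pos hbU]
    · rw [if_neg hbU, hc.cP b (hb.resolve_left hbU)]
  -- from pieces to the new domain
  have hfin : ∀ (N : Fin 3 → Set V) (ty : Fin 3 → Bool), (∀ i, (N i).Nonempty) →
      (∀ i j, (N i = N j ∧ ty i = ty j) ∨ Disjoint (N i) (N j)) → Disjoint (N 0) (N 1) →
      (∀ b, b ∈ nb G K ↔ ∃ i, b ∈ N i) →
      (∀ i, ty i = true → (∀ b ∈ N i, b ∈ D.U ∨ b ∈ D.P k.1) ∧ Set.InjOn (D.c k) (N i) ∧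
        (∀ b ∈ N i, ∀ b' ∈ N i, pathDist G ℓ b b' ≤ |D.c k b - D.c k b'| / θ) ∧
        Plc (TG G K (N i) fun v => D.c k v / θ)) →
      (∀ i, ty i = false → k.2 = false ∧ N i ⊆ D.P k.1 ∧ Plc (TG G K (N i) (D.w k.1))) →
      ∃ P' w', Good G ℓ K P' w' ∧ (∀ i, ∀ b ∈ P' i, b ∈ D.U ∨ b ∈ D.P k.1) ∧
        ∀ i, (∀ b ∈ P' i, w' i b = 2 ^ (j + 1) * D.cv k b) ∨
          (k.2 = false ∧ ∀ b ∈ P' i, b ∈ D.P k.1) := by
    intro N ty hN hdis h01 hcov hyes hno
    let w' : Fin 3 → V → ℝ := fun i => if ty i = true then (fun v => D.c k v / θ) else D.w k.1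
    have hw1 : ∀ i, ty i = true → w' i = fun v => D.c k v / θ := fun i h => if_pos h
    have hw0 : ∀ i, ty i = false → w' i = D.w k.1 := fun i h => by
      show (if ty i = true then (fun v => D.c k v / θ) else D.w k.1) = _
      rw [if_neg (by rw [h]; decide)]
    have hin : ∀ i, ∀ b ∈ N i, b ∈ D.U ∨ b ∈ D.P k.1 := by
      intro i b hb
      rcases h : ty i with _ | _
      · exact Or.inr ((hno i h).2.1 hb)
      · exact (hyes i h).1 b hb
    refine ⟨N, w', ?_, hin, ?_⟩
    · refine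
        { ne := hKne
          conn := hKw
          out := fun i => Set.disjoint_left.2 fun b hb hb' => ((hcov b).2 ⟨i, hb'⟩).1 hb
          pne := hN
          foot := fun i b hb => ((hcov b).2 ⟨i, hb⟩).2
          cover := fun v hv b hb hadj => (hcov b).1 ⟨hb, v, hv, hadj⟩
          disj := ?_
          two := ⟨0, 1, h01⟩
          inj := ?_
          a := ?_
          b := ?_
          c := ?_ }
      · intro i i'
        rcases hdis i i' with h | h
        · refine Or.inl ⟨h.1, ?_⟩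
          show (if ty i = true then (fun v => D.c k v / θ) else D.w k.1) =
            if ty i' = true then (fun v => D.c k v / θ) else D.w k.1
          rw [h.2]
        · exact Or.inr h
      · intro i
        rcases h : ty i with _ | _
        · rw [hw0 i h]
          exact (hg.inj k.1).mono (hno i h).2.1
        · rw [hw1 i h]
          intro a ha b hb e
          exact (hyes i h).2.1 ha hb ((div_left_inj' h0.ne').1 e)
      · intro i
        rcases h : ty i with _ | _
        · rw [hw0 i h]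
          exact (hg.a k.1).mono hKU (hno i h).2.1
        · rw [hw1 i h]
          exact condA_child hsl hs.pos h0 (fun v hv => ⟨hKU hv, (hKU' v hv).2.le⟩)
            fun b hb => hin i b hb
      · intro i b hb b' hb'
        rcases h : ty i with _ | _
        · rw [hw0 i h]
          exact hg.b k.1 b ((hno i h).2.1 hb) b' ((hno i h).2.1 hb')
        · rw [hw1 i h]
          have e : D.c k b / θ - D.c k b' / θ = (D.c k b - D.c k b') / θ := by ring
          show pathDist G ℓ b b' ≤ |D.c k b / θ - D.c k b' / θ|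
          rw [e, abs_div, abs_of_pos h0]
          exact (hyes i h).2.2.1 b hb b' hb'
      · intro i
        rcases h : ty i with _ | _
        · rw [hw0 i h]
          exact (hno i h).2.2.2
        · rw [hw1 i h]
          exact (hyes i h).2.2.2.2
    · intro i
      rcases h : ty i with _ | _
      · exact Or.inr ⟨(hno i h).1, fun b hb => (hno i h).2.1 hb⟩
      · left
        intro b hb
        rw [hw1 i h]
        exact hcv b (hin i b hb)
  obtain ⟨k1, k2⟩ := k
  rcases k2 with _ | _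
  · -- `τ = 0`
    obtain ⟨N, ty, hN, h01, h2', hcov, hty⟩ := struct_0 hs.conn hs.pos (hg.out k1) (hg.pne k1)
      (hg.inj k1) hUc hfoot hΓ (fun b _ => by simp [Dom.tau]) hc h0 h1 hKU hKM hKc hKnb h2
    refine hfin N ty hN ?_ h01 hcov (fun i h => ⟨fun b hb => Or.inl (((hty i).1 h).1 b hb).1,
      ((hty i).1 h).2⟩) fun i h => ⟨rfl, (hty i).2 h⟩
    intro i i'
    fin_cases i <;> fin_cases i'
    · exact Or.inl ⟨rfl, rfl⟩
    · exact Or.inr h01
    · rcases h2' with h | h
      · exact Or.inr (by show Disjoint (N 0) (N 2); rw [h.1]; exact h01)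
      · exact Or.inr h.1.symm
    · exact Or.inr h01.symm
    · exact Or.inl ⟨rfl, rfl⟩
    · rcases h2' with h | h
      · exact Or.inl ⟨h.1.symm, h.2.symm⟩
      · exact Or.inr h.2.symm
    · rcases h2' with h | h
      · exact Or.inr (by show Disjoint (N 2) (N 0); rw [h.1]; exact h01.symm)
      · exact Or.inr h.1
    · rcases h2' with h | h
      · exact Or.inl h
      · exact Or.inr h.2
    · exact Or.inl ⟨rfl, rfl⟩
  · -- `τ = w`
    obtain ⟨N, hN, h01, hcov, hM, hty⟩ := struct_w hs.conn hs.pos (hg.out k1) (hg.pne k1)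
      (hg.inj k1) hΓ (fun b _ => by simp [Dom.tau]) hc (hg.b k1) h0 h1 hKU hKM hKc hKnb h2
    refine hfin ![N 0, N 1, N 1] (fun _ => true) ?_ ?_ h01 ?_ ?_ fun i h => by simp at h
    · intro i
      fin_cases i
      · exact hN 0
      · exact hN 1
      · exact hN 1
    · intro i i'
      fin_cases i <;> fin_cases i'
      · exact Or.inl ⟨rfl, rfl⟩
      · exact Or.inr h01
      · exact Or.inr h01
      · exact Or.inr h01.symm
      · exact Or.inl ⟨rfl, rfl⟩
      · exact Or.inl ⟨rfl, rfl⟩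
      · exact Or.inr h01.symm
      · exact Or.inl ⟨rfl, rfl⟩
      · exact Or.inl ⟨rfl, rfl⟩
    · intro b
      rw [hcov b, Fin.exists_fin_two]
      constructor
      · rintro (h | h)
        · exact ⟨0, h⟩
        · exact ⟨1, h⟩
      · rintro ⟨i, hi⟩
        fin_cases i
        · exact Or.inl hi
        · exact Or.inr hi
        · exact Or.inr hi
    · intro i _
      fin_cases i
      · exact ⟨fun b hb => (hM 0 b hb).imp_left fun h => h.1, hty 0⟩
      · exact ⟨fun b hb => (hM 1 b hb).imp_left fun h => h.1, hty 1⟩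
      · exact ⟨fun b hb => (hM 1 b hb).imp_left fun h => h.1, hty 1⟩

end Vale.Agent.P235.LL.H834
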