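/-
P235-LL (helper834), row START: the components of `G - {r, r'}` are good, with the pieces `{r}` and
`{r'}` and `w = 0`.
-/
import Vale.Agent.P235.LL.H611.GRows
import Vale.Agent.P235.LL.H536.Init

set_option linter.all false
set_option autoImplicit false

namespace Vale.Agent.P235.LL.H834

open SimpleGraph Vale.Agent.P235 Vale.Agent.P235.H510

/-- the pieces of a start domain -/
def PS {V : Type} (r r' : V) (i : Fin 3) : Set V := if i = 0 then {r} else {r'}

theorem PS_cases {V : Type} (r r' : V) (i : Fin 3) : PS r r' i = {r} ∨ PS r r' i = {r'} := by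
  unfold PS; split_ifs
  · exact Or.inl rfl
  · exact Or.inr rfl

theorem rowStart : RowStart := by
  intro V _ G ℓ hS r r' hrr x hx hx'
  obtain ⟨-, -, h3⟩ := H536.init hS.conn hS.plane hS.cut hrr
  have h0 : x ∉ ({r, r'} : Set V) := fun h => h.elim hx hx'
  have hst := H536.start_comp (G := G) h0
  obtain ⟨n1, n2, hcl, t1, t2⟩ := h3 _ hst
  have hne : r ≠ r' := hrr.ne
  -- one piece `{q}` with `q` outside, a neighbour inside
  have hq : ∀ i, ∃ q, PS r r' i = {q} ∧ q ∉ compSet G {r, r'} x ∧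
      (∃ v ∈ compSet G {r, r'} x, G.Adj v q) ∧
      H555.Pl (TG G (compSet G {r, r'} x) {q} (fun _ => 0)) := by
    intro i
    rcases PS_cases r r' i with h | h
    · exact ⟨r, h, hst.nr, n1, (t1 _).2⟩
    · exact ⟨r', h, hst.nr', n2, (t2 _).2⟩
  refine ⟨PS r r', fun _ _ => 0, ?_⟩
  constructor
  · exact ⟨x, ReachOff.refl h0⟩
  · intro u hu v hv
    obtain ⟨p⟩ := hst.conn.preconnected ⟨u, hu⟩ ⟨v, hv⟩
    refine ⟨p.map (SimpleGraph.Embedding.induce _).toHom, fun z hz => ?_⟩
    have hz' := hz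
    erw [SimpleGraph.Walk.support_map] at hz'
    obtain ⟨y, -, rfl⟩ := List.mem_map.1 hz'
    exact y.2
  · intro i
    obtain ⟨q, e, h1, -⟩ := hq i
    rw [e]
    exact Set.disjoint_singleton_right.2 h1
  · intro i
    obtain ⟨q, e, -⟩ := hq i
    rw [e]
    exact Set.singleton_nonempty q
  · intro i b hb
    obtain ⟨q, e, -, h2, -⟩ := hq i
    rw [e, Set.mem_singleton_iff] at hb
    rw [hb]
    exact h2
  · intro v hv b hb hvb
    rcases hcl b hb ⟨v, hv, hvb⟩ with h | h
    · exact ⟨0, by simp [PS, h]⟩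
    · exact ⟨1, by simp [PS, h]⟩
  · intro i j
    by_cases hi : i = 0 <;> by_cases hj : j = 0
    · exact Or.inl ⟨by rw [hi, hj], rfl⟩
    · right
      simp [PS, hi, hj, hne]
    · right
      simp [PS, hi, hj, hne.symm]
    · exact Or.inl ⟨by simp [PS, hi, hj], rfl⟩
  · exact ⟨0, 1, by simp [PS, hne]⟩
  · intro i b hb b' hb' _
    obtain ⟨q, e, -⟩ := hq i
    rw [e, Set.mem_singleton_iff] at hb hb'
    rw [hb, hb']
  · intro i b hb b' hb' v v' p hp h1 h2
    have e1 := hS.pos _ (G.mem_edgeSet.2 h1)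
    have e2 := hS.pos _ (G.mem_edgeSet.2 h2)
    have e3 := wl_nonneg hS.pos p
    simp only [sub_self, abs_zero]
    linarith
  · intro i b hb b' hb'
    obtain ⟨q, e, -⟩ := hq i
    rw [e, Set.mem_singleton_iff] at hb hb'
    rw [hb, hb', (pathDist_isMet hS.conn hS.pos).self]
    simp
  · intro i
    obtain ⟨q, e, -, -, h⟩ := hq i
    rw [e]
    exact h

end Vale.Agent.P235.LL.H834
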